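import Vale.Agent.P073.SQ.Spec
import Vale.Agent.P073.Net.Defs
import Vale.Agent.P073.PLS.Defs

/-!
# Block LR (low rank): definitions and statements, part 1

* `SpecColl`  : the collapse `x ↦ x + μ x • κ` is a limit of diffeomorphisms.
* `mu`        : the explicit collapse function of one slab; `SpecMu`.
* `SpecCross` : the squeeze of a square, with control on segments which avoid the centre.
* `SpecSubdiv`: a locally finite family of rational segments is subdivided by a graph.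
-/

namespace Vale.Agent.P073.LR

open MeasureTheory Set Filter Topology Metric Vale.Agent.P073.St
open Vale.Agent.P073.SQ (ev cube SuppDiffeo faceE edgesE)
open scoped ContDiff ENNReal

/-- near `x` the function `μ` is affine in the direction `w`, with slope `c` -/
def AffNear (μ : V → ℝ) (x w : V) (c : ℝ) : Prop :=
  ∃ r > 0, ∀ z, ‖z - x‖ < r → ∀ s : ℝ, |s| < r → μ (z + s • w) = μ z + s * c

/-- (LR1) A collapse along the direction `κ` is a limit of diffeomorphisms. -/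
def SpecColl : Prop :=
  ∀ (K : Set V) (κ : V) (μ : V → ℝ) (L : NNReal), IsCompact K → LipschitzWith L μ →
    tsupport μ ⊆ interior K → (∀ x, ∀ s : ℝ, 0 ≤ s → μ x - s ≤ μ (x + s • κ)) →
    ∃ S : ℕ → V → V, (∀ n, SuppDiffeo K (S n)) ∧
      (∀ n x, ‖S n x - (x + μ x • κ)‖ ≤ 1 / (n + 1)) ∧
      (∀ n x w, ‖fderiv ℝ (S n) x w‖ ≤ (1 + L * ‖κ‖) * ‖w‖) ∧
      (∀ n x, ∃ m : ℝ, S n x = x + m • κ) ∧
      ∀ x w c, AffNear μ x w c →
        Tendsto (fun n => fderiv ℝ (S n) x w) atTop (𝓝 (w + c • κ))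

/-- One half of the collapse function of a slab: `t` is the height over the section, `lam` the ramp
function, `a` the thickness of the layer, `m * a` the half thickness of the main part. -/
noncomputable def nu (a : ℝ) (m : ℕ) (t lam : ℝ) : ℝ :=
  max 0 (min t (min (m * ((m + 1) * a - t)) lam))

/-- The collapse function of a slab with section `x k = c`: main part `|x k - c| ≤ m a`,
`m a ≤ lam x`; identity for `(m + 1) a ≤ |x k - c|` or `lam x ≤ 0`. -/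
noncomputable def mu (k : Fin 3) (c a : ℝ) (m : ℕ) (lam : V → ℝ) (x : V) : ℝ :=
  nu a m (c - x k) (lam x) - nu a m (x k - c) (lam x)

/-- the ramp function of the rectangle `|x i - q i| ≤ ℓ` (`i ≠ k`) -/
noncomputable def lam (k : Fin 3) (q : V) (ℓ a : ℝ) (m : ℕ) (x : V) : ℝ :=
  m * a - ‖fun i => if i = k then 0 else max 0 (|x i - q i| - ℓ)‖

/-- (LR2) properties of the collapse function -/
def SpecMu : Prop :=
  ∀ (k : Fin 3) (q κ : V) (ℓ a : ℝ) (m : ℕ), 0 < a → 0 < m → 0 ≤ ℓ → κ k = 1 →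
    (∀ i, |κ i| ≤ 1) →
    (∀ x, ∀ s : ℝ, 0 ≤ s →
      mu k (q k) a m (lam k q ℓ a m) x - s ≤ mu k (q k) a m (lam k q ℓ a m) (x + s • κ)) ∧
    LipschitzWith (2 * (m + 1)) (mu k (q k) a m (lam k q ℓ a m)) ∧
    (∀ x, (m + 1) * a ≤ |x k - q k| ∨ (∃ i, i ≠ k ∧ ℓ + m * a ≤ |x i - q i|) →
      mu k (q k) a m (lam k q ℓ a m) x = 0) ∧
    (∀ x, |x k - q k| ≤ m * a → (∀ i, i ≠ k → |x i - q i| ≤ ℓ) →
      mu k (q k) a m (lam k q ℓ a m) x = -(x k - q k)) ∧
    -- along every segment, affine near all but countably many points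
    ∀ x w : V, {t : ℝ | ¬ ∃ c, AffNear (mu k (q k) a m (lam k q ℓ a m)) (x + t • w) w c}.Countable

/-- (LR3) the squeeze of a square as in `SQ.SpecFace`, with control on finitely many segments of
the square which stay away from the centre -/
def SpecCross : Prop :=
  ∀ (p γ : ℝ), 1 ≤ p → p < 2 → 0 < γ → ∃ C : ℝ≥0∞, C ≠ ⊤ ∧
    ∀ (a : V) (k : Fin 3) (ρ : ℝ) (U W : Set V) (G : V → V) (ε : ℝ≥0∞)
      (X : Finset (V × V)), 0 < ρ →
      IsOpen U → (∀ x : V, x k = a k → (∀ l, l ≠ k → |x l - a l| < ρ) → x ∈ U) →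
      IsOpen W → (∀ x : V, x k = a k → (∀ l, l ≠ k → |x l - a l| ≤ ρ) → x ∈ W) →
      ContDiffOn ℝ 1 G W → ε ≠ 0 →
      (∀ y ∈ X, ∀ t ∈ Icc (0:ℝ) 1, (y.1 + t • y.2) k = a k ∧
        (∀ l, l ≠ k → |(y.1 + t • y.2) l - a l| ≤ ρ) ∧
        ∃ l, l ≠ k ∧ γ * ρ ≤ |(y.1 + t • y.2) l - a l|) →
      ∃ (K : Set V) (s : V → V), SuppDiffeo K s ∧ K ⊆ U ∩ {x | ∀ l, l ≠ k → |x l - a l| < ρ} ∧
        (∀ x, s x k = x k) ∧
        faceE p (G ∘ s) a k ρ ≤ C * edgesE p G a k ρ + ε ∧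
        ∀ y ∈ X, ∫⁻ t in Icc (0:ℝ) 1,
            ENNReal.ofReal (‖fderiv ℝ (G ∘ s) (y.1 + t • y.2) y.2‖ ^ p) ≤
          C * ENNReal.ofReal (‖y.2‖ ^ (p - 1) / (2 * ρ) ^ 2) * edgesE p G a k ρ + ε

/-- (LR4) locally finite families of rational segments are subdivided by a rational graph -/
def SpecSubdiv : Prop :=
  ∀ (Ω : Set V) (o : V) (ι : Type) (_ : Countable ι) (a b : ι → V), IsOpen Ω →
    (∀ i, a i ∈ P073.PLS.Rat3 o ∧ b i ∈ P073.PLS.Rat3 o ∧ a i ≠ b i) →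
    (∀ i, segment ℝ (a i) (b i) ⊆ Ω) →
    (∀ K ⊆ Ω, IsCompact K → {i | (segment ℝ (a i) (b i) ∩ K).Nonempty}.Finite) →
    ∃ G : P073.Net.Graph Ω, Countable G.ι ∧
      (∀ j, G.a j ∈ P073.PLS.Rat3 o ∧ G.b j ∈ P073.PLS.Rat3 o) ∧
      (∀ j, ∃ i, segment ℝ (G.a j) (G.b j) ⊆ segment ℝ (a i) (b i)) ∧
      ∀ i, ∃ S : Finset G.ι, segment ℝ (a i) (b i) = ⋃ j ∈ S, segment ℝ (G.a j) (G.b j)

end Vale.Agent.P073.LR
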