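import Vale.Agent.P073.LR.Spec
import Vale.Agent.P073.SQ.RadDiffeo
import Mathlib.Analysis.Calculus.ContDiff.Convolution
import Mathlib.Analysis.Calculus.BumpFunction.Normed
import Mathlib.Analysis.Calculus.BumpFunction.FiniteDimension

/-!
# Block LR: the collapse is a limit of diffeomorphisms (SpecColl)
-/

namespace Vale.Agent.P073.LR

open MeasureTheory Set Filter Topology Metric Vale.Agent.P073.St
open Vale.Agent.P073.SQ (SuppDiffeo)
open scoped ContDiff ENNReal Convolution

/-- mollification -/
noncomputable def moll (φ : ContDiffBump (0 : V)) (μ : V → ℝ) (x : V) : ℝ :=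
  ∫ t, φ.normed volume t * μ (x - t)

theorem moll_integrable (φ : ContDiffBump (0 : V)) {μ : V → ℝ} (hμ : Continuous μ) (x : V) :
    Integrable (fun t => φ.normed volume t * μ (x - t)) := by
  refine Continuous.integrable_of_hasCompactSupport ?_ ?_
  · exact (φ.contDiff_normed (n := 0)).continuous.mul (by fun_prop)
  · exact φ.hasCompactSupport_normed.mul_right

theorem moll_contDiff (φ : ContDiffBump (0 : V)) {μ : V → ℝ} (hμ : Continuous μ) :
    ContDiff ℝ ∞ (moll φ μ) := by
  have h := HasCompactSupport.contDiff_convolution_left (n := ⊤)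
    (ContinuousLinearMap.lsmul ℝ ℝ) (μ := (volume : Measure V)) (f := φ.normed volume)
    φ.hasCompactSupport_normed φ.contDiff_normed (g := μ) hμ.locallyIntegrable
  exact h

theorem moll_sub_mem (φ : ContDiffBump (0 : V)) {μ : V → ℝ} (hμ : Continuous μ) {x y : V}
    {a b : ℝ} (h : ∀ t : V, ‖t‖ < φ.rOut → a ≤ μ (y - t) - μ (x - t) ∧
      μ (y - t) - μ (x - t) ≤ b) :
    a ≤ moll φ μ y - moll φ μ x ∧ moll φ μ y - moll φ μ x ≤ b := by
  have hsub : moll φ μ y - moll φ μ x =
      ∫ t, φ.normed volume t * (μ (y - t) - μ (x - t)) := by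
    rw [moll, moll, ← integral_sub (moll_integrable φ hμ y) (moll_integrable φ hμ x)]
    congr 1; ext t; ring
  have hint : Integrable (fun t => φ.normed volume t * (μ (y - t) - μ (x - t))) := by
    have := (moll_integrable φ hμ y).sub (moll_integrable φ hμ x)
    refine this.congr (Eventually.of_forall fun t => ?_)
    simp only [Pi.sub_apply]; ring
  have hφi : Integrable (φ.normed (volume : Measure V)) := φ.integrable_normed
  have h1 : ∫ t, φ.normed (volume : Measure V) t = 1 := φ.integral_normed
  have hz : ∀ t : V, ¬ ‖t‖ < φ.rOut → φ.normed (volume : Measure V) t = 0 := by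
    intro t ht
    have : t ∉ Function.support (φ.normed (volume : Measure V)) := by
      rw [φ.support_normed_eq]
      simpa using ht
    simpa using this
  constructor
  · calc a = ∫ t, φ.normed (volume : Measure V) t * a := by
          rw [integral_mul_const, h1, one_mul]
      _ ≤ ∫ t, φ.normed (volume : Measure V) t * (μ (y - t) - μ (x - t)) := by
          refine integral_mono (hφi.mul_const a) hint fun t => ?_
          by_cases ht : ‖t‖ < φ.rOut
          · exact mul_le_mul_of_nonneg_left (h t ht).1 (φ.nonneg_normed t)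
          · simp [hz t ht]
      _ = _ := hsub.symm
  · calc _ = ∫ t, φ.normed (volume : Measure V) t * (μ (y - t) - μ (x - t)) := hsub
      _ ≤ ∫ t, φ.normed (volume : Measure V) t * b := by
          refine integral_mono hint (hφi.mul_const b) fun t => ?_
          by_cases ht : ‖t‖ < φ.rOut
          · exact mul_le_mul_of_nonneg_left (h t ht).2 (φ.nonneg_normed t)
          · simp [hz t ht]
      _ = b := by rw [integral_mul_const, h1, one_mul]

theorem moll_eq_zero (φ : ContDiffBump (0 : V)) {μ : V → ℝ} {x : V}
    (h : ∀ t : V, ‖t‖ < φ.rOut → μ (x - t) = 0) : moll φ μ x = 0 := by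
  rw [moll]
  refine integral_eq_zero_of_ae (Eventually.of_forall fun t => ?_)
  by_cases ht : ‖t‖ < φ.rOut
  · simp [h t ht]
  · have : t ∉ Function.support (φ.normed (volume : Measure V)) := by
      rw [φ.support_normed_eq]
      simpa using ht
    have h0 : φ.normed (volume : Measure V) t = 0 := by simpa using this
    simp [h0]

theorem moll_close (φ : ContDiffBump (0 : V)) {μ : V → ℝ} {L : NNReal} (hμ : LipschitzWith L μ)
    (x : V) : |moll φ μ x - μ x| ≤ L * φ.rOut := by
  have hφi : Integrable (φ.normed (volume : Measure V)) := φ.integrable_normed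
  have h1 : ∫ t, φ.normed (volume : Measure V) t = 1 := φ.integral_normed
  have hsub : moll φ μ x - μ x = ∫ t, φ.normed volume t * (μ (x - t) - μ x) := by
    have : μ x = ∫ t, φ.normed (volume : Measure V) t * μ x := by
      rw [integral_mul_const, h1, one_mul]
    rw [moll]
    conv_lhs => rw [this]
    rw [← integral_sub (moll_integrable φ hμ.continuous x) (hφi.mul_const _)]
    congr 1; ext t; ring
  rw [hsub]
  have hL : 0 ≤ (L : ℝ) * φ.rOut := mul_nonneg L.2 φ.rOut_pos.le
  calc |∫ t, φ.normed volume t * (μ (x - t) - μ x)|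
      ≤ ∫ t, φ.normed (volume : Measure V) t * (L * φ.rOut) := by
        rw [← Real.norm_eq_abs]
        refine norm_integral_le_of_norm_le (hφi.mul_const _) (Eventually.of_forall fun t => ?_)
        rw [norm_mul, Real.norm_of_nonneg (φ.nonneg_normed t)]
        by_cases ht : ‖t‖ < φ.rOut
        · refine mul_le_mul_of_nonneg_left ?_ (φ.nonneg_normed t)
          have := hμ.dist_le_mul (x - t) x
          rw [Real.norm_eq_abs, ← Real.dist_eq]
          refine this.trans ?_
          gcongr
          simpa [dist_eq_norm] using ht.le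
        · have : t ∉ Function.support (φ.normed (volume : Measure V)) := by
            rw [φ.support_normed_eq]
            simpa using ht
          have h0 : φ.normed (volume : Measure V) t = 0 := by simpa using this
          simp [h0]
    _ = L * φ.rOut := by rw [integral_mul_const, h1, one_mul]


theorem exists_bump_radius {K : Set V} {μ : V → ℝ} (hK : IsCompact K)
    (hsupp : tsupport μ ⊆ interior K) :
    ∃ r > 0, ∀ x, x ∉ K → ∀ t : V, ‖t‖ < r → μ (x - t) = 0 := by
  have hc : IsCompact (tsupport μ) :=
    hK.of_isClosed_subset (isClosed_tsupport μ) (hsupp.trans interior_subset)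
  obtain ⟨r, hr, h⟩ := hc.exists_thickening_subset_open isOpen_interior hsupp
  refine ⟨r, hr, fun x hx t ht => ?_⟩
  by_contra hne
  apply hx
  apply interior_subset
  apply h
  rw [mem_thickening_iff]
  exact ⟨x - t, subset_tsupport μ hne, by simpa [dist_eq_norm] using ht⟩

/-- the bump functions used -/
noncomputable def bmp (r : ℝ) (hr : 0 < r) : ContDiffBump (0 : V) :=
  ⟨r / 2, r, half_pos hr, half_lt_self hr⟩

theorem specColl : SpecColl := by
  intro K κ μ L hK hL hsupp hmono
  obtain ⟨r₀, hr₀, hr₀K⟩ := exists_bump_radius hK hsupp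
  have hμc : Continuous μ := hL.continuous
  -- bound of `μ`
  obtain ⟨B, hB⟩ : ∃ B : ℝ, ∀ x, |μ x| ≤ B := by
    have hcs : HasCompactSupport μ :=
      hK.of_isClosed_subset (isClosed_tsupport μ) (hsupp.trans interior_subset)
    obtain ⟨B, hB⟩ := hcs.exists_bound_of_continuous hμc
    exact ⟨B, fun x => by simpa using hB x⟩
  have hB0 : 0 ≤ B := (abs_nonneg _).trans (hB 0)
  -- radii
  have hden : ∀ n : ℕ, 0 < (2 * (n + 1) * ((L : ℝ) * (‖κ‖ + 1) + B * (‖κ‖ + 1) + 1) : ℝ) := by
    intro n
    have : 0 ≤ (L : ℝ) * (‖κ‖ + 1) := by positivity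
    have : 0 ≤ B * (‖κ‖ + 1) := by positivity
    positivity
  let D : ℝ := (L : ℝ) * (‖κ‖ + 1) + B * (‖κ‖ + 1) + 1
  have hD : 1 ≤ D := by
    have : 0 ≤ (L : ℝ) * (‖κ‖ + 1) := by positivity
    have : 0 ≤ B * (‖κ‖ + 1) := by positivity
    simp only [D]; linarith
  let η : ℕ → ℝ := fun n => 1 / (2 * (n + 1) * D)
  have hη : ∀ n, 0 < η n := fun n => by
    have := hden n
    simp only [η, D]; positivity
  have hη1 : ∀ n, η n ≤ 1 / 2 := by
    intro n
    simp only [η]
    apply one_div_le_one_div_of_le (by norm_num)
    have h1 : (1 : ℝ) ≤ n + 1 := by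
      have : (0 : ℝ) ≤ n := Nat.cast_nonneg n
      linarith
    nlinarith
  let rr : ℕ → ℝ := fun n => min r₀ (η n)
  have hrr : ∀ n, 0 < rr n := fun n => lt_min hr₀ (hη n)
  let φ : ℕ → ContDiffBump (0 : V) := fun n => bmp (rr n) (hrr n)
  have hφr : ∀ n, (φ n).rOut = rr n := fun n => rfl
  let M : ℕ → V → ℝ := fun n => moll (φ n) μ
  have hMs : ∀ n, ContDiff ℝ ∞ (M n) := fun n => moll_contDiff _ hμc
  have hMd : ∀ n, Differentiable ℝ (M n) := fun n => (hMs n).differentiable (by simp)
  have hMlip : ∀ n, LipschitzWith L (M n) := by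
    intro n
    refine LipschitzWith.of_dist_le_mul fun x y => ?_
    have h := moll_sub_mem (φ n) hμc (x := y) (y := x) (a := -(L * dist x y))
      (b := L * dist x y) fun t _ => by
        have h1 := hL.dist_le_mul (x - t) (y - t)
        rw [Real.dist_eq, dist_sub_right] at h1
        exact abs_le.1 h1
    rw [Real.dist_eq]
    exact abs_le.2 h
  have hMfd : ∀ n x w, |fderiv ℝ (M n) x w| ≤ L * ‖w‖ := by
    intro n x w
    have h1 : ‖fderiv ℝ (M n) x‖ ≤ L := norm_fderiv_le_of_lipschitz ℝ (hMlip n)
    calc |fderiv ℝ (M n) x w| = ‖fderiv ℝ (M n) x w‖ := rfl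
      _ ≤ ‖fderiv ℝ (M n) x‖ * ‖w‖ := ContinuousLinearMap.le_opNorm _ _
      _ ≤ L * ‖w‖ := by gcongr
  have hMclose : ∀ n x, |M n x - μ x| ≤ L * η n := by
    intro n x
    refine (moll_close (φ n) hL x).trans ?_
    gcongr
    exact min_le_right _ _
  have hMbd : ∀ n x, |M n x| ≤ B + L * η n := by
    intro n x
    calc |M n x| = |(M n x - μ x) + μ x| := by ring_nf
      _ ≤ |M n x - μ x| + |μ x| := abs_add_le _ _
      _ ≤ B + L * η n := by linarith [hMclose n x, hB x]
  have hMmono : ∀ n x, ∀ s : ℝ, 0 ≤ s → M n x - s ≤ M n (x + s • κ) := by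
    intro n x s hs
    have h := (moll_sub_mem (φ n) hμc (x := x) (y := x + s • κ) (a := -s)
      (b := L * (s * ‖κ‖)) fun t _ => by
        have h1 := hmono (x - t) s hs
        have h2 := hL.dist_le_mul (x + s • κ - t) (x - t)
        have h3 : x + s • κ - t = x - t + s • κ := by abel
        rw [h3] at h2 ⊢
        rw [dist_eq_norm, dist_eq_norm, add_sub_cancel_left, norm_smul, Real.norm_eq_abs,
          Real.norm_eq_abs, abs_of_nonneg hs] at h2
        constructor
        · linarith
        · exact (le_abs_self _).trans h2).1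
    simp only [M]
    linarith
  have hMκ : ∀ n x, -1 ≤ fderiv ℝ (M n) x κ := by
    intro n x
    have hd : HasDerivAt (fun s : ℝ => M n (x + s • κ)) (fderiv ℝ (M n) x κ) 0 := by
      have h1 : HasFDerivAt (M n) (fderiv ℝ (M n) x) (x + (0:ℝ) • κ) := by
        simpa using (hMd n x).hasFDerivAt
      have h2 : HasDerivAt (fun s : ℝ => x + s • κ) κ 0 := by
        simpa using ((hasDerivAt_id (0:ℝ)).smul_const κ).const_add x
      exact h1.comp_hasDerivAt 0 h2
    have hd2 : HasDerivAt (fun s : ℝ => M n (x + s • κ) + s) (fderiv ℝ (M n) x κ + 1) 0 :=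
      hd.add (hasDerivAt_id 0)
    have hmn : Monotone (fun s : ℝ => M n (x + s • κ) + s) := by
      intro s t hst
      have := hMmono n (x + s • κ) (t - s) (by linarith)
      have h3 : x + s • κ + (t - s) • κ = x + t • κ := by
        rw [add_assoc, ← add_smul]; congr 2; ring
      rw [h3] at this
      show M n (x + s • κ) + s ≤ M n (x + t • κ) + t
      linarith
    have h4 : 0 ≤ deriv (fun s : ℝ => M n (x + s • κ) + s) 0 := hmn.deriv_nonneg
    rw [hd2.deriv] at h4
    linarith
  let c : ℕ → ℝ := fun n => 1 - η n
  have hc0 : ∀ n, 0 ≤ c n := fun n => by simp only [c]; linarith [hη1 n]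
  have hc1 : ∀ n, c n ≤ 1 := fun n => by simp only [c]; linarith [hη n]
  let S : ℕ → V → V := fun n x => x + (c n * M n x) • κ
  have hSs : ∀ n, ContDiff ℝ ∞ (S n) := by
    intro n
    have := hMs n
    exact contDiff_id.add ((contDiff_const.mul this).smul contDiff_const)
  have hSd : ∀ n x w, fderiv ℝ (S n) x w = w + (c n * fderiv ℝ (M n) x w) • κ := by
    intro n x w
    have h1 : HasFDerivAt (M n) (fderiv ℝ (M n) x) x := (hMd n x).hasFDerivAt
    have h2 : HasFDerivAt (S n) (ContinuousLinearMap.id ℝ V +
        ((c n • fderiv ℝ (M n) x).smulRight κ)) x :=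
      (hasFDerivAt_id x).add ((h1.const_mul (c n)).smul_const κ)
    rw [h2.fderiv]
    simp
  refine ⟨S, fun n => ?_, fun n x => ?_, fun n x w => ?_, fun n x => ⟨_, rfl⟩, ?_⟩
  · -- diffeomorphism
    refine SuppDiffeo.of_injective hK (hSs n) ?_ ?_ ?_
    · -- injective
      have key : ∀ x y : V, S n x = S n y → ∀ τ : ℝ, 0 ≤ τ → x = y + τ • κ → x = y := by
        intro x y hxy τ hτ hx
        by_cases hκ : κ = 0
        · rw [hx, hκ]; simp
        have h1 := hMmono n y τ hτ
        rw [← hx] at h1
        have h2 : (τ + c n * (M n x - M n y)) • κ = 0 := by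
          have h3 : S n x - S n y = (τ + c n * (M n x - M n y)) • κ := by
            have h4 : x - y = τ • κ := by rw [hx]; abel
            calc S n x - S n y = (x - y) + (c n * (M n x - M n y)) • κ := by
                  simp only [S]; module
              _ = _ := by rw [h4]; module
          rw [← h3, hxy, sub_self]
        have h4 : τ + c n * (M n x - M n y) = 0 := by
          rcases smul_eq_zero.1 h2 with h | h
          · exact h
          · exact absurd h hκ
        have h5 : c n * (-τ) ≤ c n * (M n x - M n y) :=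
          mul_le_mul_of_nonneg_left (by linarith) (hc0 n)
        have h6 : η n * τ ≤ 0 := by
          have : (1 - c n) * τ ≤ 0 := by nlinarith
          simpa [c] using this
        have h7 : τ = 0 := by
          have := hη n
          nlinarith
        rw [hx, h7]; simp
      intro x y hxy
      have h1 : x - y = (c n * M n y - c n * M n x) • κ := by
        have : S n x = S n y := hxy
        simp only [S] at this
        rw [sub_smul, sub_eq_sub_iff_add_eq_add]
        rw [this]; abel
      rcases le_total 0 (c n * M n y - c n * M n x) with h | h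
      · exact key x y hxy _ h (by rw [← h1]; abel)
      · refine (key y x hxy.symm (-(c n * M n y - c n * M n x)) (by linarith) ?_).symm
        rw [neg_smul, ← h1]; abel
    · intro x v hv
      rw [hSd] at hv
      by_cases hκ : κ = 0
      · simpa [hκ] using hv
      obtain ⟨τ, hτ⟩ : ∃ τ : ℝ, v = τ • κ :=
        ⟨-(c n * fderiv ℝ (M n) x v), by rw [neg_smul]; exact eq_neg_of_add_eq_zero_left hv⟩
      have h1 : (τ * (1 + c n * fderiv ℝ (M n) x κ)) • κ = 0 := by
        rw [← hv, hτ, map_smul, smul_eq_mul]
        module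
      have h2 : 0 < 1 + c n * fderiv ℝ (M n) x κ := by
        have h3 := mul_le_mul_of_nonneg_left (hMκ n x) (hc0 n)
        have h4 := hη n
        simp only [c] at h3 ⊢
        linarith
      rcases smul_eq_zero.1 h1 with h | h
      · rcases mul_eq_zero.1 h with h | h
        · rw [hτ, h, zero_smul]
        · exact absurd h h2.ne'
      · exact absurd h hκ
    · intro x hx
      have : M n x = 0 := moll_eq_zero (φ n) fun t ht =>
        hr₀K x hx t (ht.trans_le ((hφr n).le.trans (min_le_left _ _)))
      simp only [S, this, mul_zero, zero_smul, add_zero]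
  · -- closeness
    have h1 : S n x - (x + μ x • κ) = ((M n x - μ x) - η n * M n x) • κ := by
      simp only [S, c]; module
    rw [h1, norm_smul, Real.norm_eq_abs]
    have h2 : |M n x - μ x - η n * M n x| ≤ L * η n + η n * (B + L * η n) := by
      calc |M n x - μ x - η n * M n x| ≤ |M n x - μ x| + |η n * M n x| := abs_sub _ _
        _ ≤ L * η n + η n * (B + L * η n) := by
            rw [abs_mul, abs_of_pos (hη n)]
            have := mul_le_mul_of_nonneg_left (hMbd n x) (hη n).le
            linarith [hMclose n x]
    have h3 : L * η n + η n * (B + L * η n) ≤ 2 * η n * (L + B) := by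
      have hL0 : (0 : ℝ) ≤ L := L.2
      have h4 : η n * (L * η n) ≤ η n * L := by
        have := hη n; have h5 := hη1 n
        apply mul_le_mul_of_nonneg_left _ this.le
        nlinarith
      have h5 : 0 ≤ η n * B := mul_nonneg (hη n).le hB0
      nlinarith
    calc |M n x - μ x - η n * M n x| * ‖κ‖ ≤ 2 * η n * (L + B) * (‖κ‖ + 1) := by
          have hκ := norm_nonneg κ
          have h6 : 0 ≤ 2 * η n * (L + B) := (abs_nonneg _).trans (h2.trans h3)
          calc _ ≤ (2 * η n * (L + B)) * ‖κ‖ := by
                exact mul_le_mul_of_nonneg_right (h2.trans h3) hκ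
            _ ≤ _ := mul_le_mul_of_nonneg_left (by linarith) h6
      _ ≤ 2 * η n * D := by
          have : (L + B) * (‖κ‖ + 1) ≤ D := by simp only [D]; nlinarith
          have h7 := mul_le_mul_of_nonneg_left this (by have := hη n; positivity : 0 ≤ 2 * η n)
          linarith [h7, mul_assoc (2 * η n) (L + B) (‖κ‖ + 1)]
      _ = 1 / (n + 1) := by
          simp only [η]
          have hD0 : D ≠ 0 := by linarith
          have hn : (n + 1 : ℝ) ≠ 0 := by positivity
          field_simp
  · rw [hSd]
    calc ‖w + (c n * fderiv ℝ (M n) x w) • κ‖ ≤ ‖w‖ + ‖(c n * fderiv ℝ (M n) x w) • κ‖ :=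
          norm_add_le _ _
      _ ≤ ‖w‖ + (L * ‖w‖) * ‖κ‖ := by
          rw [norm_smul, Real.norm_eq_abs, abs_mul, abs_of_nonneg (hc0 n)]
          have h1 : c n * |fderiv ℝ (M n) x w| ≤ L * ‖w‖ := by
            calc c n * |fderiv ℝ (M n) x w| ≤ 1 * |fderiv ℝ (M n) x w| :=
                  mul_le_mul_of_nonneg_right (hc1 n) (abs_nonneg _)
              _ ≤ L * ‖w‖ := by rw [one_mul]; exact hMfd n x w
          have := mul_le_mul_of_nonneg_right h1 (norm_nonneg κ)
          linarith
      _ = (1 + L * ‖κ‖) * ‖w‖ := by ring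
  · -- convergence of directional derivatives
    rintro x w a ⟨r, hr, haff⟩
    have hηlim : Tendsto η atTop (𝓝 0) := by
      have h1 : Tendsto (fun n : ℕ => 1 / (2 * D) * (1 / ((n : ℝ) + 1))) atTop (𝓝 0) := by
        simpa using tendsto_one_div_add_atTop_nhds_zero_nat.const_mul (1 / (2 * D))
      refine h1.congr fun n => ?_
      simp only [η]
      have hD0 : D ≠ 0 := by linarith
      have hn : (n + 1 : ℝ) ≠ 0 := by positivity
      field_simp
    have hev : ∀ᶠ n in atTop, fderiv ℝ (M n) x w = a := by
      have h1 : ∀ᶠ n in atTop, η n < r := hηlim.eventually (gt_mem_nhds hr)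
      filter_upwards [h1] with n hn
      have hd : HasDerivAt (fun s : ℝ => M n (x + s • w)) (fderiv ℝ (M n) x w) 0 := by
        have h1 : HasFDerivAt (M n) (fderiv ℝ (M n) x) (x + (0:ℝ) • w) := by
          simpa using (hMd n x).hasFDerivAt
        have h2 : HasDerivAt (fun s : ℝ => x + s • w) w 0 := by
          simpa using ((hasDerivAt_id (0:ℝ)).smul_const w).const_add x
        exact h1.comp_hasDerivAt 0 h2
      have heq : (fun s : ℝ => M n (x + s • w)) =ᶠ[𝓝 0] fun s => M n x + s * a := by
        have : ∀ᶠ s : ℝ in 𝓝 0, |s| < r := by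
          have := (continuous_abs : Continuous (fun s : ℝ => |s|)).tendsto 0
          rw [abs_zero] at this
          exact this.eventually (gt_mem_nhds hr)
        filter_upwards [this] with s hs
        have h := moll_sub_mem (φ n) hμc (x := x) (y := x + s • w) (a := s * a)
          (b := s * a) fun t ht => by
            have h1 : x + s • w - t = (x - t) + s • w := by abel
            have h2 : ‖(x - t) - x‖ < r := by
              have : (x - t) - x = -t := by abel
              rw [this, norm_neg]
              exact ht.trans_le (((hφr n).le.trans (min_le_right _ _)).trans hn.le)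
            rw [h1, haff _ h2 s hs]
            constructor <;> linarith
        simp only [M]
        linarith [h.1, h.2]
      have hd2 : HasDerivAt (fun s : ℝ => M n (x + s • w)) a 0 := by
        refine HasDerivAt.congr_of_eventuallyEq ?_ heq
        simpa using ((hasDerivAt_id (0:ℝ)).mul_const a).const_add (M n x)
      exact hd.unique hd2
    have hlim : Tendsto (fun n => w + (c n * a) • κ) atTop (𝓝 (w + (1 * a) • κ)) := by
      have hc : Tendsto c atTop (𝓝 1) := by
        simpa [c] using hηlim.const_sub 1
      exact ((hc.mul_const a).smul_const κ).const_add w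
    rw [one_mul] at hlim
    refine hlim.congr' ?_
    filter_upwards [hev] with n hn
    rw [hSd, hn]

end Vale.Agent.P073.LR
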