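import Vale.Agent.P073.SQ.Spec

/-!
# P073, block LR: limits of energies under composition with a convergent sequence of maps
-/

open Set Metric Topology Filter MeasureTheory
open scoped ENNReal ContDiff

namespace P073.LR

open Vale.Agent.P073.St (V)

theorem rpow_add_le {p : ℝ} (hp : 0 < p) {x y : ℝ} (hx : 0 ≤ x) (hy : 0 ≤ y) :
    (x + y) ^ p ≤ 2 ^ p * (x ^ p + y ^ p) := by
  have h1 : x + y ≤ 2 * max x y := by
    have := le_max_left x y
    have := le_max_right x y
    linarith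
  have hm : 0 ≤ max x y := le_max_of_le_left hx
  calc (x + y) ^ p ≤ (2 * max x y) ^ p := Real.rpow_le_rpow (by positivity) h1 hp.le
    _ = 2 ^ p * (max x y) ^ p := Real.mul_rpow (by norm_num) hm
    _ ≤ 2 ^ p * (x ^ p + y ^ p) := by
        gcongr
        rcases le_total x y with h | h
        · rw [max_eq_right h]; linarith [Real.rpow_nonneg hx p]
        · rw [max_eq_left h]; linarith [Real.rpow_nonneg hy p]

/-- **limit of energies**: `G` is `C¹` near the compact set `K'`, the maps `S n` take the points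
`e a`, `a ∈ X`, into `K'`, with bounded derivatives in the direction `w`, and converge together
with these derivatives. -/
theorem tendsto_energy {α : Type*} [MeasurableSpace α] {μ : Measure α} {p : ℝ} (hp : 0 < p)
    {G : V → V} {W : Set V} (hW : IsOpen W) (hG : ContDiffOn ℝ 1 G W) {K' : Set V}
    (hK' : IsCompact K') (hKW : K' ⊆ W) {S : ℕ → V → V} (hS : ∀ n, ContDiff ℝ 1 (S n))
    {e : α → V} (he : Measurable e) {X : Set α} (hX : MeasurableSet X) (hμ : μ X ≠ ⊤) {w : V}
    {B : ℝ} (hB : ∀ n, ∀ a ∈ X, ‖fderiv ℝ (S n) (e a) w‖ ≤ B)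
    (hmem : ∀ n, ∀ a ∈ X, S n (e a) ∈ K') {S0 T : α → V}
    (h0 : ∀ᵐ a ∂(μ.restrict X), Tendsto (fun n => S n (e a)) atTop (𝓝 (S0 a)))
    (hT : ∀ᵐ a ∂(μ.restrict X), Tendsto (fun n => fderiv ℝ (S n) (e a) w) atTop (𝓝 (T a)))
    {A : α → V} (hA : AEStronglyMeasurable A (μ.restrict X))
    (hAp : ∫⁻ a in X, ENNReal.ofReal (‖A a‖ ^ p) ∂μ ≠ ⊤) :
    Tendsto (fun n => ∫⁻ a in X, ENNReal.ofReal (‖fderiv ℝ (G ∘ S n) (e a) w - A a‖ ^ p) ∂μ) atTop
      (𝓝 (∫⁻ a in X, ENNReal.ofReal (‖fderiv ℝ G (S0 a) (T a) - A a‖ ^ p) ∂μ)) := by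
  -- a bound for the derivative of `G`
  have hcont : ContinuousOn (fderiv ℝ G) W := hG.continuousOn_fderiv_of_isOpen hW le_rfl
  obtain ⟨M, hM0, hM⟩ : ∃ M : ℝ, 0 ≤ M ∧ ∀ y ∈ K', ‖fderiv ℝ G y‖ ≤ M := by
    obtain ⟨M, hM⟩ := hK'.exists_bound_of_continuousOn (hcont.mono hKW)
    exact ⟨max M 0, le_max_right _ _, fun y hy => (hM y hy).trans (le_max_left _ _)⟩
  have hchain : ∀ n, ∀ a ∈ X, fderiv ℝ (G ∘ S n) (e a) w =
      fderiv ℝ G (S n (e a)) (fderiv ℝ (S n) (e a) w) := by
    intro n a ha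
    have h1 : DifferentiableAt ℝ G (S n (e a)) :=
      (hG.contDiffAt (hW.mem_nhds (hKW (hmem n a ha)))).differentiableAt one_ne_zero
    have h2 : DifferentiableAt ℝ (S n) (e a) := (hS n).contDiffAt.differentiableAt one_ne_zero
    rw [fderiv_comp _ h1 h2]
    rfl
  have hmeasD : ∀ n, AEStronglyMeasurable (fun a => fderiv ℝ G (S n (e a))
      (fderiv ℝ (S n) (e a) w)) (μ.restrict X) := by
    intro n
    have c1 : Continuous (fun y : V => fderiv ℝ (S n) y w) :=
      ((hS n).continuous_fderiv one_ne_zero).clm_apply continuous_const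
    have m1 : Measurable (fderiv ℝ G) := measurable_fderiv ℝ G
    have m2 : Measurable (fun a => fderiv ℝ G (S n (e a))) :=
      m1.comp ((hS n).continuous.measurable.comp he)
    have m3 : Measurable (fun a => fderiv ℝ (S n) (e a) w) := c1.measurable.comp he
    have c2 : Continuous (fun z : (V →L[ℝ] V) × V => z.1 z.2) :=
      continuous_fst.clm_apply continuous_snd
    exact (c2.measurable.comp (m2.prodMk m3)).aestronglyMeasurable
  have hrew : ∀ n, ∫⁻ a in X, ENNReal.ofReal (‖fderiv ℝ (G ∘ S n) (e a) w - A a‖ ^ p) ∂μ =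
      ∫⁻ a in X, ENNReal.ofReal (‖fderiv ℝ G (S n (e a)) (fderiv ℝ (S n) (e a) w) - A a‖ ^ p) ∂μ :=
    fun n => setLIntegral_congr_fun hX fun a ha => by simp only [hchain n a ha]
  simp only [hrew]
  refine tendsto_lintegral_of_dominated_convergence'
    (fun a => ENNReal.ofReal (2 ^ p * ((M * |B|) ^ p + ‖A a‖ ^ p))) ?_ ?_ ?_ ?_
  · intro n
    exact (((hmeasD n).sub hA).norm.aemeasurable.pow_const p).ennreal_ofReal
  · intro n
    filter_upwards [ae_restrict_mem hX] with a ha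
    apply ENNReal.ofReal_le_ofReal
    have h1 : ‖fderiv ℝ G (S n (e a)) (fderiv ℝ (S n) (e a) w)‖ ≤ M * |B| := by
      refine (ContinuousLinearMap.le_opNorm _ _).trans ?_
      exact mul_le_mul (hM _ (hmem n a ha)) ((hB n a ha).trans (le_abs_self B)) (norm_nonneg _) hM0
    calc ‖fderiv ℝ G (S n (e a)) (fderiv ℝ (S n) (e a) w) - A a‖ ^ p
        ≤ (M * |B| + ‖A a‖) ^ p := by
          apply Real.rpow_le_rpow (norm_nonneg _) _ hp.le
          exact (norm_sub_le _ _).trans (by gcongr)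
      _ ≤ _ := rpow_add_le hp (by positivity) (norm_nonneg _)
  · have h1 : ∀ a, ENNReal.ofReal (2 ^ p * ((M * |B|) ^ p + ‖A a‖ ^ p)) =
        ENNReal.ofReal (2 ^ p * (M * |B|) ^ p) + ENNReal.ofReal (2 ^ p) * ENNReal.ofReal (‖A a‖ ^ p) := by
      intro a
      rw [mul_add, ENNReal.ofReal_add (by positivity) (by positivity),
        ENNReal.ofReal_mul (p := 2 ^ p) (by positivity) (q := ‖A a‖ ^ p)]
    simp only [h1]
    rw [lintegral_add_left measurable_const, lintegral_const, lintegral_const_mul' _ _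
      ENNReal.ofReal_ne_top, Measure.restrict_apply_univ]
    exact ENNReal.add_ne_top.2 ⟨ENNReal.mul_ne_top ENNReal.ofReal_ne_top hμ,
      ENNReal.mul_ne_top ENNReal.ofReal_ne_top hAp⟩
  · filter_upwards [h0, hT, ae_restrict_mem hX] with a ha0 haT ha
    have hS0 : S0 a ∈ K' := hK'.isClosed.mem_of_tendsto ha0
      (Eventually.of_forall fun n => hmem n a ha)
    have h1 : Tendsto (fun n => fderiv ℝ G (S n (e a))) atTop (𝓝 (fderiv ℝ G (S0 a))) :=
      (hcont.continuousAt (hW.mem_nhds (hKW hS0))).tendsto.comp ha0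
    have h2 : Tendsto (fun n => fderiv ℝ G (S n (e a)) (fderiv ℝ (S n) (e a) w)) atTop
        (𝓝 (fderiv ℝ G (S0 a) (T a))) := by
      have c2 : Continuous (fun z : (V →L[ℝ] V) × V => z.1 z.2) :=
        continuous_fst.clm_apply continuous_snd
      exact (c2.tendsto (fderiv ℝ G (S0 a), T a)).comp (h1.prodMk_nhds haT)
    have h3 := ((h2.sub_const (A a)).norm.rpow_const (Or.inr hp.le) : Tendsto _ _ _)
    exact (ENNReal.continuous_ofReal.tendsto _).comp h3

end P073.LR
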