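import Vale.Agent.P073.LR.Spec
import Vale.Agent.P073.ConicalStrata

/-!
# Block LR: the collapse function of one slab (SpecMu)
-/

namespace Vale.Agent.P073.LR

open MeasureTheory Set Filter Topology Metric Vale.Agent.P073.St
open _root_.P073
open scoped ContDiff ENNReal

/-! ### Conical functions are affine along segments -/

theorem affNear_of_linSpace {μ : V → ℝ} {x w : V} (H : ConicalAt μ x)
    (hw : w ∈ linSpace μ x) : ∃ c, AffNear μ x w c := by
  obtain ⟨r, hr, hc⟩ := H
  have hform : ∀ v : V, ‖v‖ ≤ r → μ (x + v) = μ x + tcone μ x v := by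
    intro v hv
    have := tcone_formula hr hc (v := v) (s := 1) one_pos (by simpa using hv)
    rw [this]; simp
  refine ⟨tcone μ x w, r / (1 + ‖w‖ + r), by positivity, fun z hz s hs => ?_⟩
  have hd : 0 < 1 + ‖w‖ + r := by positivity
  rw [lt_div_iff₀ hd] at hz hs
  have hz0 := norm_nonneg (z - x)
  have hs0 := abs_nonneg s
  have hw0 := norm_nonneg w
  have h1 : ‖z - x‖ ≤ r := by nlinarith [mul_nonneg hz0 hw0, mul_nonneg hz0 hr.le]
  have h2 : ‖z - x + s • w‖ ≤ r := by
    have h3 : ‖s • w‖ = |s| * ‖w‖ := by rw [norm_smul, Real.norm_eq_abs]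
    have h4 := norm_add_le (z - x) (s • w)
    by_cases hr1 : r ≤ 1
    · have h5 : ‖z - x‖ * (1 + ‖w‖) ≤ r := by nlinarith [mul_nonneg hz0 hr.le]
      have h6 : |s| * (1 + ‖w‖) ≤ r := by nlinarith [mul_nonneg hs0 hr.le]
      have h7 : ‖z - x‖ < r / (1 + ‖w‖ + r) := by rwa [lt_div_iff₀ hd]
      have h8 : |s| < r / (1 + ‖w‖ + r) := by rwa [lt_div_iff₀ hd]
      have h9 : ‖z - x‖ + |s| * ‖w‖ ≤ r / (1 + ‖w‖ + r) * (1 + ‖w‖) := by
        have := mul_le_mul_of_nonneg_right h8.le hw0
        nlinarith
      have h10 : r / (1 + ‖w‖ + r) * (1 + ‖w‖) ≤ r := by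
        rw [div_mul_eq_mul_div, div_le_iff₀ hd]
        nlinarith [mul_nonneg hr.le hr.le]
      linarith
    · have h7 : ‖z - x‖ < r / (1 + ‖w‖ + r) := by rwa [lt_div_iff₀ hd]
      have h8 : |s| < r / (1 + ‖w‖ + r) := by rwa [lt_div_iff₀ hd]
      have h9 : ‖z - x‖ + |s| * ‖w‖ ≤ r / (1 + ‖w‖ + r) * (1 + ‖w‖) := by
        have := mul_le_mul_of_nonneg_right h8.le hw0
        nlinarith
      have h10 : r / (1 + ‖w‖ + r) * (1 + ‖w‖) ≤ r := by
        rw [div_mul_eq_mul_div, div_le_iff₀ hd]
        nlinarith [mul_nonneg hr.le hr.le]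
      linarith
  have e1 : z + s • w = x + (z - x + s • w) := by abel
  have e2 : z = x + (z - x) := by abel
  rw [e1, hform _ h2]
  conv_rhs => rw [e2, hform _ h1]
  rw [hw s (z - x), smul_eq_mul]
  ring

theorem countable_not_affNear {μ : V → ℝ} (H : ConicalOn μ univ) (x w : V) :
    {t : ℝ | ¬ ∃ c, AffNear μ (x + t • w) w c}.Countable := by
  have hloc : ∀ t : ℝ, ∃ U ∈ 𝓝 t, ({t : ℝ | ¬ ∃ c, AffNear μ (x + t • w) w c} ∩ U).Countable := by
    intro t
    obtain ⟨δ, hδ, h⟩ := segment_linSpace isOpen_univ H (x := x + t • w) (w := w) (mem_univ _)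
    refine ⟨ball t δ, ball_mem_nhds t hδ, ?_⟩
    refine (countable_singleton t).mono ?_
    rintro s ⟨hs, hsb⟩
    by_contra hst
    apply hs
    rw [mem_ball, Real.dist_eq] at hsb
    have h1 := h (s - t) hsb (sub_ne_zero.2 hst)
    have h2 : x + t • w + (s - t) • w = x + s • w := by
      rw [add_assoc, ← add_smul]; congr 2; ring
    rw [h2] at h1
    exact affNear_of_linSpace (H.conicalAt isOpen_univ (mem_univ _)) h1
  choose U hU hUc using hloc
  obtain ⟨T, hT, hcov⟩ := TopologicalSpace.countable_cover_nhds hU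
  have : {t : ℝ | ¬ ∃ c, AffNear μ (x + t • w) w c} ⊆
      ⋃ t ∈ T, ({t : ℝ | ¬ ∃ c, AffNear μ (x + t • w) w c} ∩ U t) := by
    intro s hs
    have : s ∈ ⋃ t ∈ T, U t := by rw [hcov]; exact mem_univ s
    simp only [mem_iUnion] at this ⊢
    obtain ⟨t, ht, hst⟩ := this
    exact ⟨t, ht, hs, hst⟩
  exact (hT.biUnion fun t _ => hUc t).mono this

/-! ### The explicit functions -/

theorem norm_fin3 (y : V) : ‖y‖ = max (max |y 0| |y 1|) |y 2| := by
  apply le_antisymm
  · rw [pi_norm_le_iff_of_nonneg (by positivity)]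
    intro i
    rw [Real.norm_eq_abs]
    fin_cases i
    · exact (le_max_left _ _).trans (le_max_left _ _)
    · exact (le_max_right _ _).trans (le_max_left _ _)
    · exact le_max_right _ _
  · refine max_le (max_le ?_ ?_) ?_ <;> exact norm_le_pi_norm y _

section
variable (k : Fin 3) (q : V) (ℓ a : ℝ) (m : ℕ)

theorem cuniv : ConicalSet (univ : Set V) :=
  fun _ _ => ⟨1, one_pos, fun _ _ _ _ _ => mem_univ _⟩

theorem conicalOn_coord (i : Fin 3) : ConicalOn (fun x : V => x i) univ :=
  conicalOn_linear (LinearMap.proj (R := ℝ) (φ := fun _ : Fin 3 => ℝ) i) cuniv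

theorem conicalOn_abs_sub (i : Fin 3) (c : ℝ) : ConicalOn (fun x : V => |x i - c|) univ := by
  have h1 : ConicalOn (fun x : V => x i - c) univ :=
    (conicalOn_coord i).sub (conicalOn_const c cuniv)
  have h2 : ConicalOn (fun x : V => -(x i - c)) univ := h1.neg
  have h3 := h1.rmax h2 (by fun_prop) (by fun_prop)
  exact h3.congr fun x _ => rfl

theorem conicalOn_lam : ConicalOn (lam k q ℓ a m) univ := by
  have hc : ∀ i : Fin 3, ConicalOn
      (fun x : V => |if i = k then 0 else max 0 (|x i - q i| - ℓ)|) univ := by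
    intro i
    by_cases h : i = k
    · refine (conicalOn_const (0:ℝ) cuniv).congr fun x _ => by simp [h]
    · have h1 := (conicalOn_const (0:ℝ) cuniv).rmax
        ((conicalOn_abs_sub i (q i)).sub (conicalOn_const ℓ cuniv)) (by fun_prop) (by fun_prop)
      refine h1.congr fun x _ => ?_
      simp only [h, if_false]
      exact abs_of_nonneg (le_max_left _ _)
  have hcont : ∀ i : Fin 3, Continuous
      (fun x : V => |if i = k then 0 else max 0 (|x i - q i| - ℓ)|) := by
    intro i
    by_cases h : i = k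
    · simp only [h, if_true]; fun_prop
    · simp only [h, if_false]; fun_prop
  have h1 := (((hc 0).rmax (hc 1) (hcont 0).continuousOn (hcont 1).continuousOn)).rmax (hc 2)
    ((hcont 0).max (hcont 1)).continuousOn (hcont 2).continuousOn
  have h2 := (conicalOn_const ((m : ℝ) * a) cuniv).sub h1
  refine h2.congr fun x _ => ?_
  rw [lam, norm_fin3]

theorem lam_lipschitz : LipschitzWith 1 (lam k q ℓ a m) := by
  refine LipschitzWith.of_dist_le_mul fun x y => ?_
  rw [NNReal.coe_one, one_mul, Real.dist_eq, lam, lam]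
  have h1 : (m : ℝ) * a - ‖fun i => if i = k then 0 else max 0 (|x i - q i| - ℓ)‖ -
      (m * a - ‖fun i => if i = k then 0 else max 0 (|y i - q i| - ℓ)‖) =
      ‖fun i => if i = k then 0 else max 0 (|y i - q i| - ℓ)‖ -
      ‖fun i => if i = k then (0:ℝ) else max 0 (|x i - q i| - ℓ)‖ := by ring
  rw [h1]
  refine (abs_norm_sub_norm_le _ _).trans ?_
  rw [dist_comm, dist_eq_norm]
  rw [pi_norm_le_iff_of_nonneg (norm_nonneg _)]
  intro i
  refine le_trans ?_ (norm_le_pi_norm (y - x) i)
  by_cases h : i = k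
  · simp [h]
  · simp only [Pi.sub_apply, h, if_false, Real.norm_eq_abs]
    refine (abs_max_sub_max_le_max _ _ _ _).trans ?_
    simp only [sub_self, abs_zero]
    refine max_le (abs_nonneg _) ?_
    have : |y i - q i| - ℓ - (|x i - q i| - ℓ) = |y i - q i| - |x i - q i| := by ring
    rw [this]
    refine (abs_abs_sub_abs_le_abs_sub _ _).trans ?_
    have : y i - q i - (x i - q i) = y i - x i := by ring
    rw [this]

theorem conicalOn_nu {t l : V → ℝ} (ht : ConicalOn t univ) (hl : ConicalOn l univ)
    (htc : Continuous t) (hlc : Continuous l) :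
    ConicalOn (fun x => nu a m (t x) (l x)) univ := by
  have h1 : ConicalOn (fun x => (m : ℝ) * ((m + 1) * a - t x)) univ := by
    have := ((conicalOn_const (((m : ℝ) + 1) * a) cuniv).sub ht).const_smul (m : ℝ)
    simpa [smul_eq_mul] using this
  have h2 := h1.rmin hl (by fun_prop) hlc.continuousOn
  have h3 := ht.rmin h2 htc.continuousOn (by fun_prop)
  exact (conicalOn_const (0:ℝ) cuniv).rmax h3 (by fun_prop) (by fun_prop)

theorem conicalOn_mu (c : ℝ) : ConicalOn (mu k c a m (lam k q ℓ a m)) univ := by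
  have hl := conicalOn_lam k q ℓ a m
  have hlc := (lam_lipschitz k q ℓ a m).continuous
  have h1 : ConicalOn (fun x : V => x k - c) univ :=
    (conicalOn_coord k).sub (conicalOn_const c cuniv)
  have h2 : ConicalOn (fun x : V => c - x k) univ :=
    (conicalOn_const c cuniv).sub (conicalOn_coord k)
  exact (conicalOn_nu a m h2 hl (by fun_prop) hlc).sub (conicalOn_nu a m h1 hl (by fun_prop) hlc)

end

theorem nu_nonneg (a : ℝ) (m : ℕ) (t l : ℝ) : 0 ≤ nu a m t l := le_max_left _ _

theorem nu_of_nonpos (a : ℝ) (m : ℕ) {t l : ℝ} (ht : t ≤ 0) : nu a m t l = 0 :=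
  max_eq_left ((min_le_left _ _).trans ht)

theorem nu_le (a : ℝ) (m : ℕ) {t l : ℝ} (ht : 0 ≤ t) : nu a m t l ≤ t :=
  max_le ht (min_le_left _ _)

/-- `nu` is Lipschitz -/
theorem nu_lip (a : ℝ) (m : ℕ) (t l t' l' : ℝ) :
    |nu a m t l - nu a m t' l'| ≤ max ((m + 1) * |t - t'|) |l - l'| := by
  unfold nu
  refine (abs_max_sub_max_le_max _ _ _ _).trans ?_
  rw [sub_self, abs_zero]
  refine max_le (le_max_of_le_right (abs_nonneg _)) ?_
  refine (abs_min_sub_min_le_max _ _ _ _).trans ?_
  have hm : (0:ℝ) ≤ m := Nat.cast_nonneg m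
  refine max_le (le_max_of_le_left ?_) ?_
  · nlinarith [abs_nonneg (t - t')]
  refine (abs_min_sub_min_le_max _ _ _ _).trans ?_
  refine max_le (le_max_of_le_left ?_) (le_max_right _ _)
  have : (m : ℝ) * ((m + 1) * a - t) - m * ((m + 1) * a - t') = m * (t' - t) := by ring
  rw [this, abs_mul, abs_of_nonneg hm, abs_sub_comm]
  nlinarith [abs_nonneg (t - t')]

/-- one half of the monotonicity -/
theorem nu_add_le (a : ℝ) (m : ℕ) {t l s l' : ℝ} (hs : 0 ≤ s) (hl : l' ≤ l + s) :
    nu a m (t + s) l' ≤ nu a m t l + s := by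
  have hm : (0:ℝ) ≤ m := Nat.cast_nonneg m
  have hms : 0 ≤ (m:ℝ) * s := mul_nonneg hm hs
  unfold nu
  rw [max_le_iff]
  constructor
  · have := le_max_left (0:ℝ) (min t (min (m * ((m + 1) * a - t)) l))
    linarith
  · have h1 : min (t + s) (min (m * ((m + 1) * a - (t + s))) l') ≤
        min t (min (m * ((m + 1) * a - t)) l) + s := by
      rw [← min_add_add_right, ← min_add_add_right]
      refine min_le_min le_rfl (min_le_min ?_ hl)
      have : (m : ℝ) * ((m + 1) * a - (t + s)) = m * ((m + 1) * a - t) - m * s := by ring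
      linarith
    have := le_max_right (0:ℝ) (min t (min (m * ((m + 1) * a - t)) l))
    linarith

/-- the other half of the monotonicity -/
theorem nu_sub_le (a : ℝ) (m : ℕ) {t l s l' : ℝ} (hs : 0 ≤ s) (hl : l - s ≤ l') :
    nu a m t l - s ≤ nu a m (t - s) l' := by
  have hm : (0:ℝ) ≤ m := Nat.cast_nonneg m
  have hms : 0 ≤ (m:ℝ) * s := mul_nonneg hm hs
  have h1 : min t (min (m * ((m + 1) * a - t)) l) - s ≤
      min (t - s) (min (m * ((m + 1) * a - (t - s))) l') := by
    rw [sub_eq_add_neg, ← min_add_add_right, ← min_add_add_right]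
    refine min_le_min (by linarith) (min_le_min ?_ (by linarith))
    have : (m : ℝ) * ((m + 1) * a - (t - s)) = m * ((m + 1) * a - t) + m * s := by ring
    linarith
  unfold nu
  rw [sub_le_iff_le_add, max_le_iff]
  constructor
  · have := le_max_left (0:ℝ) (min (t - s) (min (m * ((m + 1) * a - (t - s))) l'))
    linarith
  · have := le_max_right (0:ℝ) (min (t - s) (min (m * ((m + 1) * a - (t - s))) l'))
    linarith

theorem specMu : SpecMu := by
  intro k q κ ℓ a m ha hm hℓ hκk hκ
  have hm1 : (1:ℝ) ≤ m := by exact_mod_cast hm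
  have hll := lam_lipschitz k q ℓ a m
  have hκn : ‖κ‖ ≤ 1 := by
    rw [pi_norm_le_iff_of_nonneg zero_le_one]
    exact fun i => by rw [Real.norm_eq_abs]; exact hκ i
  refine ⟨fun x s hs => ?_, ?_, fun x hx => ?_, fun x hx1 hx2 => ?_, fun x w => ?_⟩
  · have hl := hll.dist_le_mul (x + s • κ) x
    rw [NNReal.coe_one, one_mul, Real.dist_eq, dist_eq_norm, add_sub_cancel_left, norm_smul,
      Real.norm_eq_abs, abs_of_nonneg hs] at hl
    have hl1 : |lam k q ℓ a m (x + s • κ) - lam k q ℓ a m x| ≤ s :=
      hl.trans (by nlinarith [norm_nonneg κ])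
    obtain ⟨hl2, hl3⟩ := abs_le.1 hl1
    have hxk : (x + s • κ) k = x k + s := by simp [hκk]
    unfold mu
    rw [hxk]
    set L := lam k q ℓ a m x
    set L' := lam k q ℓ a m (x + s • κ)
    rcases le_total 0 (x k - q k) with h | h
    · rw [nu_of_nonpos a m (by linarith : q k - x k ≤ 0),
        nu_of_nonpos a m (by linarith : q k - (x k + s) ≤ 0)]
      have := nu_add_le a m (t := x k - q k) (l := L) (l' := L') hs (by linarith)
      have h2 : x k + s - q k = x k - q k + s := by ring
      rw [h2]; linarith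
    · rcases le_total (x k + s - q k) 0 with h' | h'
      · rw [nu_of_nonpos a m h, nu_of_nonpos a m h']
        have := nu_sub_le a m (t := q k - x k) (l := L) (l' := L') hs (by linarith)
        have h2 : q k - (x k + s) = q k - x k - s := by ring
        rw [h2]; linarith
      · rw [nu_of_nonpos a m h, nu_of_nonpos a m (by linarith : q k - (x k + s) ≤ 0)]
        have h1 := nu_le a m (t := q k - x k) (l := L) (by linarith)
        have h2 := nu_le a m (t := x k + s - q k) (l := L') h'
        linarith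
  · refine LipschitzWith.of_dist_le_mul fun x y => ?_
    have hl := hll.dist_le_mul x y
    rw [NNReal.coe_one, one_mul, Real.dist_eq] at hl
    have hk : |x k - y k| ≤ dist x y := by
      rw [← Real.dist_eq]; exact dist_le_pi_dist x y k
    have h1 := nu_lip a m (q k - x k) (lam k q ℓ a m x) (q k - y k) (lam k q ℓ a m y)
    have h2 := nu_lip a m (x k - q k) (lam k q ℓ a m x) (y k - q k) (lam k q ℓ a m y)
    have e1 : q k - x k - (q k - y k) = -(x k - y k) := by ring
    have e2 : x k - q k - (y k - q k) = x k - y k := by ring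
    rw [e1, abs_neg] at h1
    rw [e2] at h2
    have h3 : max ((m + 1) * |x k - y k|) |lam k q ℓ a m x - lam k q ℓ a m y| ≤
        (m + 1) * dist x y := by
      refine max_le (mul_le_mul_of_nonneg_left hk (by positivity)) (hl.trans ?_)
      have := dist_nonneg (x := x) (y := y)
      nlinarith
    rw [Real.dist_eq]
    unfold mu
    have h4 : nu a m (q k - x k) (lam k q ℓ a m x) - nu a m (x k - q k) (lam k q ℓ a m x) -
        (nu a m (q k - y k) (lam k q ℓ a m y) - nu a m (y k - q k) (lam k q ℓ a m y)) =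
        (nu a m (q k - x k) (lam k q ℓ a m x) - nu a m (q k - y k) (lam k q ℓ a m y)) -
        (nu a m (x k - q k) (lam k q ℓ a m x) - nu a m (y k - q k) (lam k q ℓ a m y)) := by ring
    rw [h4]
    refine (abs_sub _ _).trans ?_
    have h5 : ((2 * (m + 1) : NNReal) : ℝ) = 2 * (m + 1) := by push_cast; ring
    rw [h5]
    linarith
  · have hz : ∀ t : ℝ, |t| = |x k - q k| → nu a m t (lam k q ℓ a m x) = 0 := by
      intro t ht
      rcases le_total t 0 with h | h
      · exact nu_of_nonpos a m h
      · rw [abs_of_nonneg h] at ht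
        unfold nu
        apply max_eq_left
        refine (min_le_right _ _).trans ?_
        rcases hx with hx | ⟨i, hi, hx⟩
        · refine (min_le_left _ _).trans ?_
          have : (m + 1) * a - t ≤ 0 := by rw [ht]; linarith
          nlinarith
        · refine (min_le_right _ _).trans ?_
          unfold lam
          have h1 := norm_le_pi_norm
            (fun i => if i = k then (0:ℝ) else max 0 (|x i - q i| - ℓ)) i
          simp only [hi, if_false, Real.norm_eq_abs] at h1
          have h2 : (m:ℝ) * a ≤ |max 0 (|x i - q i| - ℓ)| :=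
            (by linarith : (m:ℝ) * a ≤ |x i - q i| - ℓ).trans
              ((le_max_right _ _).trans (le_abs_self _))
          linarith
    unfold mu
    rw [hz _ (abs_sub_comm _ _), hz _ rfl, sub_zero]
  · have hlam : lam k q ℓ a m x = m * a := by
      unfold lam
      have : (fun i => if i = k then (0:ℝ) else max 0 (|x i - q i| - ℓ)) = 0 := by
        ext i
        by_cases h : i = k
        · simp [h]
        · simp only [h, if_false, Pi.zero_apply]
          exact max_eq_left (by linarith [hx2 i h])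
      rw [this, norm_zero, sub_zero]
    have hv : ∀ t : ℝ, 0 ≤ t → t ≤ m * a → nu a m t (m * a) = t := by
      intro t ht0 ht1
      unfold nu
      have h1 : t ≤ (m:ℝ) * ((m + 1) * a - t) := by nlinarith
      rw [min_eq_left (le_min h1 ht1), max_eq_right ht0]
    unfold mu
    rw [hlam]
    rcases le_total 0 (x k - q k) with h | h
    · rw [nu_of_nonpos a m (by linarith : q k - x k ≤ 0), hv _ h ((le_abs_self _).trans hx1)]
      ring
    · rw [nu_of_nonpos a m h, hv _ (by linarith) (by linarith [neg_abs_le (x k - q k)])]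
      ring
  · exact countable_not_affNear (conicalOn_mu k q ℓ a m (q k)) x w

end Vale.Agent.P073.LR
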