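import Vale.Agent.P073.LR.CrossD

/-!
# LR, the crossing lemma (LR3)
-/

namespace Vale.Agent.P073.LR

open MeasureTheory Set Filter Topology Metric Vale.Agent.P073.St
open Vale.Agent.P073.SQ
open scoped ContDiff ENNReal

/-- **(LR3)** -/
theorem specCross : SpecCross := by
  intro p γ hp hp2 hγ
  obtain ⟨Cp, hCp, hpol⟩ := polarIneq_of specPolar hp hp2
  obtain ⟨CR, hCR, hrad⟩ := exists_radSeqR
  refine ⟨ENNReal.ofReal (1 + 3 ^ p) * Cp + ENNReal.ofReal ((2 / γ) ^ (p - 1)),
    ENNReal.add_ne_top.2 ⟨ENNReal.mul_ne_top ENNReal.ofReal_ne_top hCp, ENNReal.ofReal_ne_top⟩, ?_⟩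
  intro a k ρ U W G ε X hρ hU hUf hW hWf hG hε hX
  set S := (Finset.univ : Finset (Fin 3)).erase k with hS
  have hmem : ∀ l, l ∈ S ↔ l ≠ k := fun l => by simp [hS]
  have hcard : 2 ≤ S.card := by
    rw [hS, Finset.card_erase_of_mem (Finset.mem_univ k)]; simp
  have hSne : S.Nonempty := Finset.card_pos.1 (by omega)
  obtain ⟨K, s, h1, h2, h3, h4⟩ := hrad S a ρ U hSne hρ hU
    (fun x hx hx' => hUf x (hx k (by simp [hS])) fun l hl => hx' l ((hmem l).2 hl))
  have hpol' := hpol S a ρ hcard hρ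
  have hsub : face S a ρ ⊆ W := fun x hx =>
    hWf x (hx.1 k (by simp [hS])) fun l hl => hx.2 l ((hmem l).2 hl)
  have e1 := energy_le h1 hρ hCR hp hW hG hsub hSne hCp hpol' hε
  have e2 : ∀ᶠ n in atTop, ∀ y ∈ X, ∫⁻ t in Icc (0:ℝ) 1,
        ENNReal.ofReal (‖fderiv ℝ (G ∘ s n) (y.1 + t • y.2) y.2‖ ^ p) ≤
      ENNReal.ofReal ((2 / γ) ^ (p - 1)) * ENNReal.ofReal (‖y.2‖ ^ (p - 1) / (2 * ρ) ^ 2) *
        edgesE p G a k ρ + ε := by
    rw [Filter.eventually_all_finset]
    intro y hy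
    have hseg : SegIn a k ρ γ y.1 y.2 := by
      refine ⟨fun t ht => (hX y hy t ht).1, fun t ht l hl => ?_, fun t ht => ?_⟩
      · rw [← co_eq]; exact (hX y hy t ht).2.1 l hl
      · obtain ⟨l, hl, hl'⟩ := (hX y hy t ht).2.2
        exact ⟨l, hl, by rw [← co_eq]; exact hl'⟩
    exact hseg.cross h1 h2 (fun n x hx => (h3 n hx).2) h4 hρ hγ hp hW hG hsub hε
  obtain ⟨n, hn1, hn2⟩ := (e1.and e2).exists
  have hupd : ∀ i ∈ S, ∀ (b : ℝ) (x : V), pr S a (Function.update x i b) =
      Function.update (Function.update x k (a k)) i b := by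
    intro i hi b x
    rw [hS, pr_erase, Function.update_comm ((hmem i).1 hi)]
  refine ⟨K n, s n, h2 n, ?_, ?_, ?_, ?_⟩
  · intro x hx
    exact ⟨(h3 n hx).1, fun l hl => (h3 n hx).2 l ((hmem l).2 hl)⟩
  · intro x
    exact h1.fix n x k (by simp [hS])
  · have hpr : ∀ x, pr S a x = Function.update x k (a k) := fun x => by rw [hS, pr_erase]
    have l1 : faceE p (G ∘ s n) a k ρ = ∫⁻ x in cube a ρ, ∑ j ∈ S, dE p (G ∘ s n) j (pr S a x) := by
      simp only [hpr]
      exact (lint_dE _ _ _ (measurable_upd k (a k))).symm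
    rw [l1]
    refine hn1.trans ?_
    have l2 : ∑ i ∈ S,
        ((∫⁻ x in cube a ρ, dens p G S a i (Function.update x i (a i + ρ))) +
        (∫⁻ x in cube a ρ, dens p G S a i (Function.update x i (a i - ρ)))) =
        edgesE p G a k ρ := by
      unfold edgesE
      refine Finset.sum_congr rfl fun i hi => ?_
      have hm : ∀ b : ℝ, ∫⁻ x in cube a ρ, dens p G S a i (Function.update x i b) =
          ∑ j ∈ S.erase i, ∫⁻ x in cube a ρ,
            dE p G j (Function.update (Function.update x k (a k)) i b) := by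
        intro b
        simp only [dens, hupd i hi]
        exact lint_dE _ _ _ ((measurable_upd i b).comp (measurable_upd k (a k)))
      rw [hm, hm, ← Finset.sum_add_distrib]
      refine Finset.sum_congr rfl fun j _ => ?_
      rw [sum_sign, one_mul, neg_one_mul, ← sub_eq_add_neg]
    rw [l2]
    gcongr
    exact le_self_add
  · intro y hy
    refine (hn2 y hy).trans ?_
    gcongr
    exact le_add_self

end Vale.Agent.P073.LR
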