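import Vale.Agent.P073.SQ.FaceCube

/-!
# LR, crossing lemma: one-dimensional facts
-/

namespace Vale.Agent.P073.LR

open MeasureTheory Set Filter Topology Vale.Agent.P073.St
open scoped ContDiff ENNReal

/-- an affine function takes a value almost nowhere, unless it is constant -/
theorem ae_affine_ne {α β r : ℝ} (h : β ≠ 0 ∨ α ≠ r) : ∀ᵐ t : ℝ, α + t * β ≠ r := by
  by_cases hβ : β = 0
  · rcases h with h | h
    · exact absurd hβ h
    · refine Eventually.of_forall fun t => ?_
      rw [hβ]; simpa using h
  · have h1 : ∀ᵐ t : ℝ, t ≠ (r - α) / β := by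
      rw [ae_iff]
      simp
    filter_upwards [h1] with t ht he
    apply ht
    field_simp
    linarith

theorem ae_abs_affine_ne {α β r : ℝ} (h : β ≠ 0) : ∀ᵐ t : ℝ, |α + t * β| ≠ r := by
  filter_upwards [ae_affine_ne (α := α) (r := r) (Or.inl h),
    ae_affine_ne (α := α) (r := -r) (Or.inl h)] with t h1 h2 h3
  rcases eq_or_eq_neg_of_abs_eq h3 with h | h
  · exact h1 h
  · exact h2 h

/-- two affine functions have the same absolute value everywhere or almost nowhere -/
theorem ae_abs_ne_of_not {α β α' β' : ℝ}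
    (h : ¬ ∀ t : ℝ, |α + t * β| = |α' + t * β'|) :
    ∀ᵐ t : ℝ, |α + t * β| ≠ |α' + t * β'| := by
  have h1 : β - β' ≠ 0 ∨ α - α' ≠ 0 := by
    by_contra hno
    push Not at hno
    apply h
    intro t
    rw [sub_eq_zero.1 hno.1, sub_eq_zero.1 hno.2]
  have h2 : β + β' ≠ 0 ∨ α + α' ≠ 0 := by
    by_contra hno
    push Not at hno
    apply h
    intro t
    rw [eq_neg_of_add_eq_zero_left hno.1, eq_neg_of_add_eq_zero_left hno.2, ← abs_neg]
    congr 1
    ring
  filter_upwards [ae_affine_ne (α := α - α') (β := β - β') (r := 0) h1,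
    ae_affine_ne (α := α + α') (β := β + β') (r := 0) h2] with t g1 g2 g3
  rcases abs_eq_abs.1 g3 with g | g
  · exact g1 (by linarith)
  · exact g2 (by linarith)

/-- change of variables for the radial projection of a segment onto one edge -/
theorem cov {α β α' β' ρ b σ : ℝ} (hσ : σ ≠ 0) (hρ : 0 < ρ) (H : ℝ → ℝ≥0∞) :
    ∫⁻ t in {t : ℝ | |α' + t * β'| < σ * (α + t * β)},
        ENNReal.ofReal |ρ * (β' * α - α' * β) / (σ * (α + t * β) ^ 2)| *
          H (b + ρ * (α' + t * β') / (σ * (α + t * β))) ≤
      ∫⁻ r in Icc (b - ρ) (b + ρ), H r := by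
  set T : Set ℝ := {t : ℝ | |α' + t * β'| < σ * (α + t * β)} with hT
  have hTm : MeasurableSet T := by
    apply IsOpen.measurableSet
    exact isOpen_lt (by fun_prop) (by fun_prop)
  have hpos : ∀ t ∈ T, 0 < σ * (α + t * β) := fun t ht => (abs_nonneg _).trans_lt ht
  have hne : ∀ t ∈ T, α + t * β ≠ 0 := fun t ht h => by
    have := hpos t ht
    rw [h, mul_zero] at this
    exact lt_irrefl _ this
  by_cases hc : β' * α - α' * β = 0
  · have : ∀ t : ℝ, ENNReal.ofReal |ρ * (β' * α - α' * β) / (σ * (α + t * β) ^ 2)| *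
          H (b + ρ * (α' + t * β') / (σ * (α + t * β))) = 0 := by
      intro t
      rw [hc]; simp
    simp_rw [this]
    simp
  · have hder : ∀ t ∈ T, HasDerivWithinAt
        (fun t : ℝ => b + ρ * (α' + t * β') / (σ * (α + t * β)))
        (ρ * (β' * α - α' * β) / (σ * (α + t * β) ^ 2)) T t := by
      intro t ht
      have h1 : HasDerivAt (fun t : ℝ => α' + t * β') β' t := by
        simpa using ((hasDerivAt_id t).mul_const β').const_add α'
      have h2 : HasDerivAt (fun t : ℝ => α + t * β) β t := by
        simpa using ((hasDerivAt_id t).mul_const β).const_add α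
      have h3 := ((h1.const_mul ρ).div (h2.const_mul σ) (hpos t ht).ne').const_add b
      refine (h3.congr_deriv ?_).hasDerivWithinAt
      have := hne t ht
      field_simp
      ring
    have hinj : InjOn (fun t : ℝ => b + ρ * (α' + t * β') / (σ * (α + t * β))) T := by
      intro t ht t' ht' he
      have h1 := hne t ht
      have h2 := hne t' ht'
      simp only [add_right_inj] at he
      rw [div_eq_div_iff (hpos t ht).ne' (hpos t' ht').ne'] at he
      have h3 : (t - t') * (β' * α - α' * β) * (ρ * σ) = 0 := by linarith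
      rcases mul_eq_zero.1 h3 with h | h
      · rcases mul_eq_zero.1 h with h | h
        · linarith
        · exact absurd h hc
      · exact absurd h (mul_ne_zero hρ.ne' hσ)
    rw [← lintegral_image_eq_lintegral_abs_deriv_mul hTm hder hinj]
    apply lintegral_mono_set
    rintro _ ⟨t, ht, rfl⟩
    have h1 := hpos t ht
    have h2 : |ρ * (α' + t * β') / (σ * (α + t * β))| ≤ ρ := by
      rw [abs_div, abs_mul, abs_of_pos hρ, abs_of_pos h1, div_le_iff₀ h1]
      have : |α' + t * β'| ≤ σ * (α + t * β) := le_of_lt ht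
      gcongr
    rw [abs_le] at h2
    exact ⟨by simp only; linarith, by simp only; linarith⟩

end Vale.Agent.P073.LR
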