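import Vale.Agent.P073.LR.Spec
import Vale.Agent.P073.LR.CrossA

/-!
# LR, the crossing lemma (LR3): limits along a segment
-/

namespace Vale.Agent.P073.LR

open MeasureTheory Set Filter Topology Metric Vale.Agent.P073.St
open Vale.Agent.P073.SQ
open scoped ContDiff ENNReal

/-- the sequence of radial diffeomorphisms, with the limit of the radial derivative -/
theorem exists_radSeqR : ∃ C : ℝ, 0 < C ∧ ∀ (S : Finset (Fin 3)) (c : V) (ρ : ℝ)
    (U : Set V), S.Nonempty → 0 < ρ → IsOpen U →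
    (∀ x : V, (∀ l, l ∉ S → x l = c l) → (∀ l ∈ S, |x l - c l| < ρ) → x ∈ U) →
    ∃ (K : ℕ → Set V) (s : ℕ → V → V), RadSeq C S c ρ s ∧ (∀ n, SuppDiffeo (K n) (s n)) ∧
      (∀ n, K n ⊆ U ∩ {x | ∀ l ∈ S, |x l - c l| < ρ}) ∧
      ∀ x, ∀ i ∈ S, (∀ l, l ∉ S → x l = c l) → (∀ j ∈ S, |x j - c j| ≤ |x i - c i|) →
        0 < |x i - c i| → |x i - c i| < ρ →
        Tendsto (fun n => fderiv ℝ (s n) x (x - c)) atTop (𝓝 0) := by
  obtain ⟨C, hC, h1⟩ := specRadR
  refine ⟨C, hC, fun S c ρ U hS hρ hU hUS => ?_⟩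
  obtain ⟨K, s, a1, a2, a3, a4, a5, a6⟩ := h1 S c ρ U hS hρ hU hUS
  refine ⟨K, s, ⟨fun n => (a1 n).smooth, a3, ?_, a4, a6⟩, a1, a2, a5⟩
  intro n x hx l hl
  by_cases hxK : x ∈ K n
  · have h2 := (a2 n ((a1 n).mapsTo hxK)).2
    exact (h2 l hl).le
  · rw [(a1 n).supp x hxK]; exact hx l hl

/-- the coordinate of the segment, relative to the centre -/
def co (a P w : V) (l : Fin 3) (t : ℝ) : ℝ := (P l - a l) + t * w l

theorem co_eq (a P w : V) (l : Fin 3) (t : ℝ) : (P + t • w) l - a l = co a P w l t := by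
  simp only [co, Pi.add_apply, Pi.smul_apply, smul_eq_mul]; ring

/-- velocity of the projected point -/
noncomputable def vel (a P w : V) (ρ : ℝ) (i j : Fin 3) (t : ℝ) : ℝ :=
  (ρ / |co a P w i t|) * (w j - (co a P w j t / co a P w i t) * w i)

section
variable {a P w : V} {k i j : Fin 3} {ρ γ CR p : ℝ} {s : ℕ → V → V} {K : ℕ → Set V}
  {G : V → V} {W : Set V}

/-- a segment of the square which stays away from the centre -/
structure SegIn (a : V) (k : Fin 3) (ρ γ : ℝ) (P w : V) : Prop where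
  plane : ∀ t ∈ Icc (0:ℝ) 1, (P + t • w) k = a k
  box : ∀ t ∈ Icc (0:ℝ) 1, ∀ l, l ≠ k → |co a P w l t| ≤ ρ
  away : ∀ t ∈ Icc (0:ℝ) 1, ∃ l, l ≠ k ∧ γ * ρ ≤ |co a P w l t|

theorem SegIn.wk (h : SegIn a k ρ γ P w) : w k = 0 := by
  have h0 := h.plane 0 (by simp)
  have h1 := h.plane 1 (by simp)
  simp only [Pi.add_apply, Pi.smul_apply, smul_eq_mul] at h0 h1
  linarith

theorem SegIn.mem_face (h : SegIn a k ρ γ P w) {t : ℝ} (ht : t ∈ Icc (0:ℝ) 1) :
    P + t • w ∈ face (Finset.univ.erase k) a ρ := by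
  refine ⟨fun l hl => ?_, fun l hl => ?_⟩
  · have : l = k := by simpa using hl
    rw [this]; exact h.plane t ht
  · rw [co_eq]
    exact h.box t ht l (Finset.ne_of_mem_erase hl)

theorem fin3 {k i j : Fin 3} (hij : i ≠ j) (hik : i ≠ k) (hjk : j ≠ k) (l : Fin 3) :
    l = k ∨ l = i ∨ l = j := by
  revert k i j l
  decide

theorem decomp (hij : i ≠ j) (hik : i ≠ k) (hjk : j ≠ k) {v : V} (hv : v k = 0) :
    v = v i • ev i + v j • ev j := by
  funext l
  have hall := fin3 hij hik hjk l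
  simp only [Pi.add_apply, Pi.smul_apply, smul_eq_mul, ev]
  rcases hall with rfl | rfl | rfl
  · rw [hv, Pi.single_eq_of_ne (Ne.symm hik), Pi.single_eq_of_ne (Ne.symm hjk)]; ring
  · rw [Pi.single_eq_same, Pi.single_eq_of_ne hij]; ring
  · rw [Pi.single_eq_same, Pi.single_eq_of_ne (Ne.symm hij)]; ring

theorem mem_erase_of {l k : Fin 3} (h : l ≠ k) : l ∈ (Finset.univ : Finset (Fin 3)).erase k := by
  simp [h]

/-- uniform bound of the derivative along the segment -/
theorem SegIn.bound (h : SegIn a k ρ γ P w) (hij : i ≠ j) (hik : i ≠ k) (hjk : j ≠ k)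
    (hr : RadSeq CR (Finset.univ.erase k) a ρ s) (hρ : 0 < ρ) (hγ : 0 < γ) (n : ℕ) {t : ℝ}
    (ht : t ∈ Icc (0:ℝ) 1) : ‖fderiv ℝ (s n) (P + t • w) w‖ ≤ 2 * (CR / γ) * ‖w‖ := by
  obtain ⟨m, hmk, hm⟩ := h.away t ht
  have hf := h.mem_face ht
  have hb : ∀ l, l ≠ k → ‖fderiv ℝ (s n) (P + t • w) (ev l)‖ ≤ CR / γ := by
    intro l hl
    have h1 := hr.bound n _ hf.1 hf.2 l (mem_erase_of hl) m (mem_erase_of hmk)
    rw [co_eq] at h1
    rw [le_div_iff₀ hγ]
    have h2 : ‖fderiv ℝ (s n) (P + t • w) (ev l)‖ * (γ * ρ) ≤ CR * ρ :=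
      (mul_le_mul_of_nonneg_left hm (norm_nonneg _)).trans h1
    have h3 : (‖fderiv ℝ (s n) (P + t • w) (ev l)‖ * γ) * ρ ≤ CR * ρ := by linarith
    exact le_of_mul_le_mul_right h3 hρ
  have hCR : 0 ≤ CR / γ := (norm_nonneg _).trans (hb i hik)
  rw [decomp (v := w) hij hik hjk h.wk, map_add, map_smul, map_smul,
    ← decomp (v := w) hij hik hjk h.wk]
  refine (norm_add_le _ _).trans ?_
  rw [norm_smul, norm_smul]
  have h1 : ‖w i‖ * ‖fderiv ℝ (s n) (P + t • w) (ev i)‖ ≤ ‖w‖ * (CR / γ) :=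
    mul_le_mul (norm_le_pi_norm w i) (hb i hik) (norm_nonneg _) (norm_nonneg _)
  have h2 : ‖w j‖ * ‖fderiv ℝ (s n) (P + t • w) (ev j)‖ ≤ ‖w‖ * (CR / γ) :=
    mul_le_mul (norm_le_pi_norm w j) (hb j hjk) (norm_nonneg _) (norm_nonneg _)
  linarith

/-- the limit of the velocity in the sector `i` -/
theorem SegIn.lim (h : SegIn a k ρ γ P w) (hij : i ≠ j) (hik : i ≠ k) (hjk : j ≠ k)
    (hr : RadSeq CR (Finset.univ.erase k) a ρ s) (hs : ∀ n, SuppDiffeo (K n) (s n))
    (hK : ∀ n, K n ⊆ {x | ∀ l ∈ Finset.univ.erase k, |x l - a l| < ρ})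
    (hρ : 0 < ρ) {t : ℝ} (ht : t ∈ Icc (0:ℝ) 1)
    (hd : |co a P w j t| < |co a P w i t|) (hb : |co a P w i t| = ρ → w i = 0) :
    Tendsto (fun n => s n (P + t • w)) atTop
      (𝓝 (rad (Finset.univ.erase k) a ρ i (P + t • w))) ∧
    Tendsto (fun n => fderiv ℝ (s n) (P + t • w) w) atTop
      (𝓝 (vel a P w ρ i j t • ev j)) := by
  have hf := h.mem_face ht
  have h0 : 0 < |co a P w i t| := (abs_nonneg _).trans_lt hd
  rcases eq_or_lt_of_le (h.box t ht i hik) with he | hlt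
  · -- on the boundary of the square
    have hwi := hb he
    have hnear : ∀ n, s n =ᶠ[𝓝 (P + t • w)] id := by
      intro n
      have hout : P + t • w ∈ (K n)ᶜ := by
        intro hin
        have := hK n hin i (mem_erase_of hik)
        rw [co_eq, he] at this
        exact lt_irrefl _ this
      filter_upwards [(hs n).compact.isClosed.isOpen_compl.mem_nhds hout] with z hz
      exact (hs n).supp z hz
    have hradeq : rad (Finset.univ.erase k) a ρ i (P + t • w) = P + t • w := by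
      funext l
      unfold rad
      split_ifs with hl
      · rw [co_eq a P w i, he, mul_div_assoc, mul_comm, div_mul_cancel₀ _ hρ.ne']
        ring
      · rfl
    have hw : vel a P w ρ i j t • ev j = w := by
      conv_rhs => rw [decomp (v := w) hij hik hjk h.wk]
      rw [vel, he, hwi, div_self hρ.ne']
      simp
    refine ⟨?_, ?_⟩
    · rw [hradeq]
      exact tendsto_const_nhds.congr fun n => ((hnear n).eq_of_nhds).symm
    · rw [hw]
      refine tendsto_const_nhds.congr fun n => ?_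
      rw [(hnear n).fderiv_eq, fderiv_id]
      rfl
  · have hdom : ∀ l ∈ Finset.univ.erase k, l ≠ i →
        |(P + t • w) l - a l| < |(P + t • w) i - a i| := by
      intro l hl hli
      have hlk : l ≠ k := Finset.ne_of_mem_erase hl
      have : l = j := (fin3 hij hik hjk l).elim (fun h => absurd h hlk)
        (fun h => h.elim (fun h => absurd h hli) id)
      subst this
      rw [co_eq, co_eq]
      exact hd
    obtain ⟨l1, l2, l3⟩ := hr.lim _ i (mem_erase_of hik) hf.1 hdom (by rw [co_eq]; exact h0)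
      (by rw [co_eq]; exact hlt)
    refine ⟨l1, ?_⟩
    have l4 := l2 j (mem_erase_of hjk) (Ne.symm hij)
    simp only [co_eq] at l3 l4
    have l5 := (l3.const_smul (w i)).add (l4.const_smul (w j))
    have e1 : ∀ n, w i • fderiv ℝ (s n) (P + t • w) (ev i) +
        w j • fderiv ℝ (s n) (P + t • w) (ev j) = fderiv ℝ (s n) (P + t • w) w := by
      intro n
      conv_rhs => rw [decomp (v := w) hij hik hjk h.wk]
      rw [map_add, map_smul, map_smul]
      congr 2 <;> rw [← decomp (v := w) hij hik hjk h.wk]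
    simp only [e1] at l5
    convert l5 using 2
    funext l
    have hall := fin3 hij hik hjk l
    simp only [Pi.add_apply, Pi.smul_apply, smul_eq_mul, ev, vel]
    rcases hall with rfl | rfl | rfl
    · rw [Pi.single_eq_of_ne (Ne.symm hjk)]
      simp
    · rw [Pi.single_eq_of_ne hij]
      simp
    · rw [Pi.single_eq_same, if_pos ⟨mem_erase_of hjk, Ne.symm hij⟩]
      ring

theorem SegIn.lim_pt (h : SegIn a k ρ γ P w) (hij : i ≠ j) (hik : i ≠ k) (hjk : j ≠ k)
    (hr : RadSeq CR (Finset.univ.erase k) a ρ s) (hs : ∀ n, SuppDiffeo (K n) (s n))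
    (hK : ∀ n, K n ⊆ {x | ∀ l ∈ Finset.univ.erase k, |x l - a l| < ρ})
    (hρ : 0 < ρ) (hp : 1 ≤ p) (hW : IsOpen W) (hG : ContDiffOn ℝ 1 G W)
    (hsub : face (Finset.univ.erase k) a ρ ⊆ W) {t : ℝ} (ht : t ∈ Icc (0:ℝ) 1)
    (hd : |co a P w j t| < |co a P w i t|) (hb : |co a P w i t| = ρ → w i = 0) :
    Tendsto (fun n => ENNReal.ofReal (‖fderiv ℝ (G ∘ s n) (P + t • w) w‖ ^ p)) atTop
      (𝓝 (ENNReal.ofReal (|vel a P w ρ i j t| ^ p) *
        dE p G j (rad (Finset.univ.erase k) a ρ i (P + t • w)))) := by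
  have hp0 : 0 < p := by linarith
  obtain ⟨l1, l2⟩ := h.lim hij hik hjk hr hs hK hρ ht hd hb
  have hf := h.mem_face ht
  have hR : rad (Finset.univ.erase k) a ρ i (P + t • w) ∈ face (Finset.univ.erase k) a ρ := by
    have hclosed := (isCompact_face (Finset.univ.erase k) a hρ.le).isClosed
    exact hclosed.mem_of_tendsto l1 (Eventually.of_forall fun n => hr.mem_face n hf)
  have hD : Tendsto (fun n => fderiv ℝ G (s n (P + t • w))) atTop
      (𝓝 (fderiv ℝ G (rad (Finset.univ.erase k) a ρ i (P + t • w)))) :=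
    (continuousAt_fderiv hW hG (hsub hR)).tendsto.comp l1
  have hDw := ((isBoundedBilinearMap_apply (𝕜 := ℝ) (E := V) (F := V)).continuous.tendsto
    (fderiv ℝ G (rad (Finset.univ.erase k) a ρ i (P + t • w)),
      vel a P w ρ i j t • ev j)).comp (hD.prodMk_nhds l2)
  have h3 := ENNReal.tendsto_ofReal (hDw.norm.rpow_const (p := p) (Or.inr hp0.le))
  have e1 : ENNReal.ofReal (‖fderiv ℝ G (rad (Finset.univ.erase k) a ρ i (P + t • w))
      (vel a P w ρ i j t • ev j)‖ ^ p) = ENNReal.ofReal (|vel a P w ρ i j t| ^ p) *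
        dE p G j (rad (Finset.univ.erase k) a ρ i (P + t • w)) := by
    rw [map_smul, norm_smul, Real.mul_rpow (norm_nonneg _) (norm_nonneg _),
      ENNReal.ofReal_mul (by positivity), Real.norm_eq_abs]
    rfl
  rw [← e1]
  refine h3.congr fun n => ?_
  rw [hr.fderiv_comp hW hG hsub n hf]
  rfl

end

end Vale.Agent.P073.LR
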