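import Vale.Agent.P073.LR.CrossB

/-!
# LR, the crossing lemma (LR3): bounds
-/

namespace Vale.Agent.P073.LR

open MeasureTheory Set Filter Topology Metric Vale.Agent.P073.St
open Vale.Agent.P073.SQ
open scoped ContDiff ENNReal

section
variable {a P w : V} {k i j : Fin 3} {ρ γ CR p : ℝ} {s : ℕ → V → V} {K : ℕ → Set V}
  {G : V → V} {W : Set V}

theorem SegIn.ge_of (h : SegIn a k ρ γ P w) (hij : i ≠ j) (hik : i ≠ k) (hjk : j ≠ k)
    {t : ℝ} (ht : t ∈ Icc (0:ℝ) 1) (hd : |co a P w j t| ≤ |co a P w i t|) :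
    γ * ρ ≤ |co a P w i t| := by
  obtain ⟨l, hlk, hl⟩ := h.away t ht
  rcases fin3 hij hik hjk l with rfl | rfl | rfl
  · exact absurd rfl hlk
  · exact hl
  · exact hl.trans hd

theorem vel_eq {t : ℝ} (h0 : co a P w i t ≠ 0) :
    |vel a P w ρ i j t| =
      |ρ| * |w j * (P i - a i) - (P j - a j) * w i| / (co a P w i t) ^ 2 := by
  have e : vel a P w ρ i j t = (ρ / |co a P w i t|) *
      ((w j * (P i - a i) - (P j - a j) * w i) / co a P w i t) := by
    rw [vel]
    congr 1
    rw [eq_div_iff h0, sub_mul]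
    rw [show co a P w j t / co a P w i t * w i * co a P w i t = co a P w j t * w i by
      field_simp]
    simp only [co]
    ring
  rw [e, abs_mul, abs_div, abs_div, abs_abs, ← sq_abs (co a P w i t)]
  have : |co a P w i t| ≠ 0 := abs_ne_zero.2 h0
  field_simp

theorem SegIn.vel_le (h : SegIn a k ρ γ P w) (hij : i ≠ j) (hik : i ≠ k) (hjk : j ≠ k)
    (hρ : 0 < ρ) (hγ : 0 < γ) {t : ℝ} (ht : t ∈ Icc (0:ℝ) 1)
    (hd : |co a P w j t| < |co a P w i t|) : |vel a P w ρ i j t| ≤ 2 / γ * ‖w‖ := by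
  have h1 := h.ge_of hij hik hjk ht hd.le
  have h0 : 0 < |co a P w i t| := (abs_nonneg _).trans_lt hd
  rw [vel, abs_mul, abs_div, abs_abs, abs_of_pos hρ]
  have h2 : ρ / |co a P w i t| ≤ 1 / γ := by
    rw [div_le_div_iff₀ h0 hγ]; linarith
  have h3 : |w j - co a P w j t / co a P w i t * w i| ≤ 2 * ‖w‖ := by
    have h4 : |co a P w j t / co a P w i t| ≤ 1 := by
      rw [abs_div, div_le_one h0]; exact hd.le
    have h5 : |w j| ≤ ‖w‖ := norm_le_pi_norm w j
    have h6 : |w i| ≤ ‖w‖ := norm_le_pi_norm w i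
    calc |w j - co a P w j t / co a P w i t * w i| ≤
          |w j| + |co a P w j t / co a P w i t * w i| := abs_sub _ _
      _ ≤ ‖w‖ + 1 * ‖w‖ := by
        rw [abs_mul]
        gcongr
      _ = 2 * ‖w‖ := by ring
  calc ρ / |co a P w i t| * |w j - co a P w j t / co a P w i t * w i| ≤ (1 / γ) * (2 * ‖w‖) := by
        gcongr
    _ = 2 / γ * ‖w‖ := by ring

/-- the integrand after the change of variables -/
noncomputable def term (p : ℝ) (G : V → V) (a P w : V) (ρ : ℝ) (i j : Fin 3) (σ t : ℝ) : ℝ≥0∞ :=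
  ENNReal.ofReal |ρ * (w j * (P i - a i) - (P j - a j) * w i) /
      (σ * ((P i - a i) + t * w i) ^ 2)| *
    dE p G j (Function.update (Function.update a i (a i + σ * ρ)) j
      (a j + ρ * ((P j - a j) + t * w j) / (σ * ((P i - a i) + t * w i))))

/-- the set of times where the point is in the sector `i`, `σ` -/
def TT (a P w : V) (i j : Fin 3) (σ : ℝ) : Set ℝ :=
  {t : ℝ | |(P j - a j) + t * w j| < σ * ((P i - a i) + t * w i)}

theorem measurableSet_TT (a P w : V) (i j : Fin 3) (σ : ℝ) : MeasurableSet (TT a P w i j σ) := by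
  apply IsOpen.measurableSet
  exact isOpen_lt (by fun_prop) (by fun_prop)

theorem measurable_term (a P w : V) (i j : Fin 3) (σ : ℝ) :
    Measurable (term p G a P w ρ i j σ) := by
  unfold term
  refine Measurable.mul (by fun_prop) ((measurable_dE G j).comp ?_)
  refine measurable_pi_lambda _ fun l => ?_
  by_cases hl : l = j
  · subst hl
    simp only [Function.update_self]
    fun_prop
  · simp only [Function.update_of_ne hl]
    exact measurable_const

theorem SegIn.sector_le (h : SegIn a k ρ γ P w) (hij : i ≠ j) (hik : i ≠ k) (hjk : j ≠ k)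
    (hρ : 0 < ρ) (hγ : 0 < γ) (hp : 1 ≤ p) {t : ℝ} (ht : t ∈ Icc (0:ℝ) 1) {σ : ℝ}
    (hσ : σ = 1 ∨ σ = -1) (hT : t ∈ TT a P w i j σ) :
    ENNReal.ofReal (|vel a P w ρ i j t| ^ p) *
        dE p G j (rad (Finset.univ.erase k) a ρ i (P + t • w)) ≤
      ENNReal.ofReal ((2 / γ * ‖w‖) ^ (p - 1)) * term p G a P w ρ i j σ t := by
  have hT' : |co a P w j t| < σ * co a P w i t := hT
  have hu : 0 < σ * co a P w i t := (abs_nonneg _).trans_lt hT'
  have hσ1 : |σ| = 1 := by rcases hσ with h | h <;> simp [h]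
  have hσ2 : σ * σ = 1 := by rcases hσ with h | h <;> simp [h]
  have habs : |co a P w i t| = σ * co a P w i t := by
    rw [← abs_of_pos hu, abs_mul, hσ1, one_mul]
  have hd : |co a P w j t| < |co a P w i t| := by rw [habs]; exact hT'
  have h0 : co a P w i t ≠ 0 := fun h => by rw [h, mul_zero] at hu; exact lt_irrefl _ hu
  have hσ0 : σ ≠ 0 := fun h => by rw [h] at hσ2; simp at hσ2
  have hrad : rad (Finset.univ.erase k) a ρ i (P + t • w) =
      Function.update (Function.update a i (a i + σ * ρ)) j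
      (a j + ρ * ((P j - a j) + t * w j) / (σ * ((P i - a i) + t * w i))) := by
    have ei : (P i - a i) + t * w i = co a P w i t := rfl
    have ej : (P j - a j) + t * w j = co a P w j t := rfl
    rw [ei, ej, ← habs]
    funext l
    unfold rad
    rw [co_eq, co_eq]
    rcases fin3 hij hik hjk l with rfl | rfl | rfl
    · rw [if_neg (by simp), Function.update_of_ne (Ne.symm hjk),
        Function.update_of_ne (Ne.symm hik)]
      exact h.plane t ht
    · rw [if_pos (mem_erase_of hik), Function.update_of_ne hij, Function.update_self]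
      congr 1
      rw [habs, div_eq_iff hu.ne']
      rw [show σ * ρ * (σ * co a P w l t) = (σ * σ) * (ρ * co a P w l t) by ring, hσ2, one_mul]
    · rw [if_pos (mem_erase_of hjk), Function.update_self]
  rw [hrad, term, ← mul_assoc]
  gcongr
  have e1 : |ρ * (w j * (P i - a i) - (P j - a j) * w i) /
      (σ * ((P i - a i) + t * w i) ^ 2)| = |vel a P w ρ i j t| := by
    rw [vel_eq h0, abs_div, abs_mul, abs_mul, hσ1, one_mul, abs_pow, sq_abs]
    rfl
  rw [e1, ← ENNReal.ofReal_mul (by positivity)]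
  apply ENNReal.ofReal_le_ofReal
  have e2 : |vel a P w ρ i j t| ^ p =
      |vel a P w ρ i j t| ^ (p - 1) * |vel a P w ρ i j t| := by
    conv_lhs => rw [show p = (p - 1) + 1 by ring]
    rw [Real.rpow_add' (abs_nonneg _) (by linarith), Real.rpow_one]
  rw [e2]
  gcongr
  exact h.vel_le hij hik hjk hρ hγ ht hd

/-- the integral of one term -/
theorem lintegral_term_le (hik : i ≠ k) (hij : i ≠ j) (hjk : j ≠ k) (hρ : 0 < ρ) {σ : ℝ}
    (hσ : σ ≠ 0) :
    ∫⁻ t in TT a P w i j σ, term p G a P w ρ i j σ t ≤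
      ENNReal.ofReal (1 / (2 * ρ) ^ 2) *
        ∫⁻ x in cube a ρ, dE p G j (Function.update (Function.update x k (a k)) i (a i + σ * ρ)) := by
  have h1 := specEdge a ρ k i j (a i + σ * ρ) (dE p G j) hρ (measurable_dE G j) hik
    (Ne.symm hij) hjk
  rw [h1, ← mul_assoc, ← ENNReal.ofReal_mul (by positivity),
    div_mul_cancel₀ 1 (by positivity), ENNReal.ofReal_one, one_mul]
  exact cov hσ hρ fun r => dE p G j (Function.update (Function.update a i (a i + σ * ρ)) j r)

end

end Vale.Agent.P073.LR
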