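import Vale.Agent.P073.LR.CrossC

/-!
# LR, the crossing lemma (LR3): the estimate on one segment
-/

namespace Vale.Agent.P073.LR

open MeasureTheory Set Filter Topology Metric Vale.Agent.P073.St
open Vale.Agent.P073.SQ
open scoped ContDiff ENNReal

section
variable {a P w : V} {k i j : Fin 3} {ρ γ CR p : ℝ} {s : ℕ → V → V} {K : ℕ → Set V}
  {G : V → V} {W : Set V}

/-- the limit of the radial derivative -/
def RadLim (k : Fin 3) (a : V) (ρ : ℝ) (s : ℕ → V → V) : Prop :=
  ∀ x, ∀ i ∈ (Finset.univ : Finset (Fin 3)).erase k,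
    (∀ l, l ∉ (Finset.univ : Finset (Fin 3)).erase k → x l = a l) →
    (∀ j ∈ (Finset.univ : Finset (Fin 3)).erase k, |x j - a j| ≤ |x i - a i|) →
    0 < |x i - a i| → |x i - a i| < ρ →
    Tendsto (fun n => fderiv ℝ (s n) x (x - a)) atTop (𝓝 0)

/-- on a radial segment the derivative tends to zero -/
theorem SegIn.diag (h : SegIn a k ρ γ P w) (hij : i ≠ j) (hik : i ≠ k) (hjk : j ≠ k)
    (hR : RadLim k a ρ s) (hρ : 0 < ρ) (hγ : 0 < γ)
    (hall : ∀ t, |co a P w i t| = |co a P w j t|) {t : ℝ} (ht : t ∈ Icc (0:ℝ) 1)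
    (hb : |co a P w i t| = ρ → w i = 0) :
    Tendsto (fun n => fderiv ℝ (s n) (P + t • w) w) atTop (𝓝 0) := by
  have hsq : ∀ t, (co a P w i t) ^ 2 = (co a P w j t) ^ 2 := fun t => by
    rw [← sq_abs, hall t, sq_abs]
  have q0 := hsq 0
  have q1 := hsq 1
  have q2 := hsq (-1)
  simp only [co] at q0 q1 q2
  have c1 : w i ^ 2 = w j ^ 2 := by nlinarith
  have c2 : (P i - a i) * w i = (P j - a j) * w j := by nlinarith
  have c3 : (P i - a i) ^ 2 = (P j - a j) ^ 2 := by nlinarith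
  have hpos : 0 < |co a P w i t| :=
    (mul_pos hγ hρ).trans_le (h.ge_of hij hik hjk ht (hall t).ge)
  have h0 : co a P w i t ≠ 0 := abs_pos.1 hpos
  rcases eq_or_lt_of_le (h.box t ht i hik) with he | hlt
  · have hwi := hb he
    have hwj : w j = 0 := by
      rw [hwi] at c1
      simpa using c1.symm
    have hw0 : w = 0 := by
      rw [decomp (v := w) hij hik hjk h.wk, hwi, hwj]; simp
    rw [hw0]
    simp
  · have hf := h.mem_face ht
    have hlim := hR (P + t • w) i (mem_erase_of hik) hf.1 (fun l hl => by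
        rw [co_eq, co_eq]
        rcases fin3 hij hik hjk l with rfl | rfl | rfl
        · exact absurd rfl (Finset.ne_of_mem_erase hl)
        · exact le_rfl
        · exact (hall t).ge) (by rw [co_eq]; exact hpos) (by rw [co_eq]; exact hlt)
    have hw : w = (w i / co a P w i t) • (P + t • w - a) := by
      have hwk := h.wk
      funext l
      simp only [Pi.smul_apply, Pi.sub_apply, smul_eq_mul]
      rw [co_eq]
      rcases fin3 hij hik hjk l with rfl | rfl | rfl
      · have h0' : co a P w l t = 0 := by rw [← co_eq, h.plane t ht, sub_self]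
        rw [hwk, h0', mul_zero]
      · rw [div_mul_cancel₀ _ h0]
      · rw [div_mul_eq_mul_div, eq_div_iff h0]
        simp only [co]
        have c4 : w l * (P i - a i) = w i * (P l - a l) := by
          by_cases hz : P i - a i = 0
          · rw [hz] at c3
            have : P l - a l = 0 := by simpa using c3.symm
            rw [hz, this]; ring
          · have : (P i - a i) * (w l * (P i - a i)) = (P i - a i) * (w i * (P l - a l)) := by
              calc (P i - a i) * (w l * (P i - a i)) = w l * (P i - a i) ^ 2 := by ring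
                _ = w l * (P l - a l) ^ 2 := by rw [c3]
                _ = ((P l - a l) * w l) * (P l - a l) := by ring
                _ = ((P i - a i) * w i) * (P l - a l) := by rw [c2]
                _ = _ := by ring
            exact mul_left_cancel₀ hz this
        linarith
    have h2 := hlim.const_smul (w i / co a P w i t)
    rw [smul_zero] at h2
    refine h2.congr fun n => ?_
    rw [← map_smul, ← hw]

/-- the bound of the energy density on the segment -/
theorem SegIn.energy_bound (h : SegIn a k ρ γ P w)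
    (hr : RadSeq CR (Finset.univ.erase k) a ρ s) (hp : 1 ≤ p)
    (hW : IsOpen W) (hG : ContDiffOn ℝ 1 G W) (hsub : face (Finset.univ.erase k) a ρ ⊆ W)
    {B : ℝ} (hBd : ∀ y ∈ face (Finset.univ.erase k) a ρ, ‖fderiv ℝ G y‖ ≤ B)
    (n : ℕ) {t : ℝ} (ht : t ∈ Icc (0:ℝ) 1) :
    ENNReal.ofReal (‖fderiv ℝ (G ∘ s n) (P + t • w) w‖ ^ p) ≤
      ENNReal.ofReal ((B * ‖fderiv ℝ (s n) (P + t • w) w‖) ^ p) := by
  have hf := h.mem_face ht
  rw [hr.fderiv_comp hW hG hsub n hf]
  refine ENNReal.ofReal_le_ofReal (Real.rpow_le_rpow (norm_nonneg _) ?_ (by linarith))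
  refine (ContinuousLinearMap.le_opNorm _ _).trans ?_
  exact mul_le_mul_of_nonneg_right (hBd _ (hr.mem_face n hf)) (norm_nonneg _)

/-- the dominating sum -/
noncomputable def domS (p : ℝ) (G : V → V) (a P w : V) (ρ : ℝ) (k : Fin 3) (t : ℝ) : ℝ≥0∞ :=
  ∑ i ∈ Finset.univ.erase k, ∑ j ∈ (Finset.univ.erase k).erase i, ∑ σ ∈ ({1, -1} : Finset ℝ),
    (TT a P w i j σ).indicator (term p G a P w ρ i j σ) t

theorem le_domS (hij : i ≠ j) (hik : i ≠ k) (hjk : j ≠ k) {σ : ℝ} (hσ : σ = 1 ∨ σ = -1) {t : ℝ}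
    (hT : t ∈ TT a P w i j σ) : term p G a P w ρ i j σ t ≤ domS p G a P w ρ k t := by
  have h1 : term p G a P w ρ i j σ t =
      (TT a P w i j σ).indicator (term p G a P w ρ i j σ) t := by
    rw [indicator_of_mem hT]
  rw [h1]
  refine le_trans ?_ (Finset.single_le_sum (f := fun i => ∑ j ∈ (Finset.univ.erase k).erase i,
    ∑ σ ∈ ({1, -1} : Finset ℝ), (TT a P w i j σ).indicator (term p G a P w ρ i j σ) t)
    (fun _ _ => zero_le) (mem_erase_of hik))
  refine le_trans ?_ (Finset.single_le_sum (f := fun j =>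
    ∑ σ ∈ ({1, -1} : Finset ℝ), (TT a P w i j σ).indicator (term p G a P w ρ i j σ) t)
    (fun _ _ => zero_le) (Finset.mem_erase.2 ⟨Ne.symm hij, mem_erase_of hjk⟩))
  exact Finset.single_le_sum (f := fun σ =>
    (TT a P w i j σ).indicator (term p G a P w ρ i j σ) t) (fun _ _ => zero_le)
    (by simpa using hσ)

theorem lintegral_domS_le (hρ : 0 < ρ) :
    ∫⁻ t, domS p G a P w ρ k t ≤ ENNReal.ofReal (1 / (2 * ρ) ^ 2) * edgesE p G a k ρ := by
  have hm : ∀ i j σ, Measurable ((TT a P w i j σ).indicator (term p G a P w ρ i j σ)) :=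
    fun i j σ => (measurable_term a P w i j σ).indicator (measurableSet_TT a P w i j σ)
  unfold domS edgesE
  rw [lintegral_finsetSum _ fun i _ => Finset.measurable_sum _ fun j _ =>
    Finset.measurable_sum _ fun σ _ => hm i j σ, Finset.mul_sum]
  refine Finset.sum_le_sum fun i hi => ?_
  rw [lintegral_finsetSum _ fun j _ =>
    Finset.measurable_sum _ fun σ _ => hm i j σ, Finset.mul_sum]
  refine Finset.sum_le_sum fun j hj => ?_
  rw [lintegral_finsetSum _ fun σ _ => hm i j σ, Finset.mul_sum]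
  refine Finset.sum_le_sum fun σ hσ => ?_
  rw [lintegral_indicator (measurableSet_TT a P w i j σ)]
  have hσ0 : σ ≠ 0 := by
    rcases (by simpa using hσ : σ = 1 ∨ σ = -1) with h | h <;> rw [h] <;> norm_num
  exact lintegral_term_le (Finset.ne_of_mem_erase hi) (Ne.symm (Finset.ne_of_mem_erase hj))
    (Finset.ne_of_mem_erase (Finset.mem_of_mem_erase hj)) hρ hσ0

/-- the sign of the coordinate -/
theorem exists_TT {t : ℝ} (hd : |co a P w j t| < |co a P w i t|) :
    ∃ σ : ℝ, (σ = 1 ∨ σ = -1) ∧ t ∈ TT a P w i j σ := by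
  rcases le_total 0 (co a P w i t) with h | h
  · refine ⟨1, Or.inl rfl, ?_⟩
    rw [abs_of_nonneg h] at hd
    change |co a P w j t| < 1 * co a P w i t
    rw [one_mul]; exact hd
  · refine ⟨-1, Or.inr rfl, ?_⟩
    rw [abs_of_nonpos h] at hd
    change |co a P w j t| < -1 * co a P w i t
    rw [neg_one_mul]; exact hd

theorem SegIn.limsup_le (h : SegIn a k ρ γ P w) (hij : i ≠ j) (hik : i ≠ k) (hjk : j ≠ k)
    (hr : RadSeq CR (Finset.univ.erase k) a ρ s) (hs : ∀ n, SuppDiffeo (K n) (s n))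
    (hK : ∀ n, K n ⊆ {x | ∀ l ∈ Finset.univ.erase k, |x l - a l| < ρ})
    (hρ : 0 < ρ) (hγ : 0 < γ) (hp : 1 ≤ p) (hW : IsOpen W) (hG : ContDiffOn ℝ 1 G W)
    (hsub : face (Finset.univ.erase k) a ρ ⊆ W) {t : ℝ} (ht : t ∈ Icc (0:ℝ) 1)
    (hd : |co a P w j t| < |co a P w i t|) (hb : |co a P w i t| = ρ → w i = 0) :
    limsup (fun n => ENNReal.ofReal (‖fderiv ℝ (G ∘ s n) (P + t • w) w‖ ^ p)) atTop ≤
      ENNReal.ofReal ((2 / γ * ‖w‖) ^ (p - 1)) * domS p G a P w ρ k t := by
  rw [(h.lim_pt hij hik hjk hr hs hK hρ hp hW hG hsub ht hd hb).limsup_eq]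
  obtain ⟨σ, hσ, hT⟩ := exists_TT hd
  refine (h.sector_le hij hik hjk hρ hγ hp ht hσ hT).trans ?_
  gcongr
  exact le_domS hij hik hjk hσ hT

theorem ae_bdry (a P w : V) (i : Fin 3) (ρ : ℝ) : ∀ᵐ t : ℝ, |co a P w i t| = ρ → w i = 0 := by
  by_cases hw : w i = 0
  · exact Eventually.of_forall fun _ _ => hw
  · filter_upwards [ae_abs_affine_ne (α := P i - a i) (β := w i) (r := ρ) hw] with t ht he
    exact absurd he ht

/-- **the estimate on one segment** -/
theorem SegIn.cross (h : SegIn a k ρ γ P w)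
    (hr : RadSeq CR (Finset.univ.erase k) a ρ s) (hs : ∀ n, SuppDiffeo (K n) (s n))
    (hK : ∀ n, K n ⊆ {x | ∀ l ∈ Finset.univ.erase k, |x l - a l| < ρ})
    (hR : RadLim k a ρ s)
    (hρ : 0 < ρ) (hγ : 0 < γ) (hp : 1 ≤ p) (hW : IsOpen W) (hG : ContDiffOn ℝ 1 G W)
    (hsub : face (Finset.univ.erase k) a ρ ⊆ W) {ε : ℝ≥0∞} (hε : ε ≠ 0) :
    ∀ᶠ n in atTop, ∫⁻ t in Icc (0:ℝ) 1,
        ENNReal.ofReal (‖fderiv ℝ (G ∘ s n) (P + t • w) w‖ ^ p) ≤
      ENNReal.ofReal ((2 / γ) ^ (p - 1)) * ENNReal.ofReal (‖w‖ ^ (p - 1) / (2 * ρ) ^ 2) *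
        edgesE p G a k ρ + ε := by
  obtain ⟨i, j, hij, hik, hjk⟩ : ∃ i j : Fin 3, i ≠ j ∧ i ≠ k ∧ j ≠ k := by
    revert k
    intro k _ _ _ _ _
    clear * -
    revert k
    decide
  obtain ⟨B, hB, hBd⟩ := exists_bound hW hG hsub hρ.le
  have hp0 : 0 < p := by linarith
  set A := ENNReal.ofReal ((2 / γ) ^ (p - 1)) * ENNReal.ofReal (‖w‖ ^ (p - 1) / (2 * ρ) ^ 2) *
        edgesE p G a k ρ with hA
  by_cases hAtop : A = ⊤
  · exact Eventually.of_forall fun n => by rw [hAtop, top_add]; exact le_top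
  have hmem : ∀ᵐ t ∂(volume.restrict (Icc (0:ℝ) 1)), t ∈ Icc (0:ℝ) 1 :=
    ae_restrict_mem measurableSet_Icc
  have hbi : ∀ᵐ t ∂(volume.restrict (Icc (0:ℝ) 1)), |co a P w i t| = ρ → w i = 0 :=
    ae_restrict_of_ae (ae_bdry a P w i ρ)
  have hbj : ∀ᵐ t ∂(volume.restrict (Icc (0:ℝ) 1)), |co a P w j t| = ρ → w j = 0 :=
    ae_restrict_of_ae (ae_bdry a P w j ρ)
  have hcont : Continuous fun t : ℝ => P + t • w := by fun_prop
  have hlim : limsup (fun n => ∫⁻ t in Icc (0:ℝ) 1,
        ENNReal.ofReal (‖fderiv ℝ (G ∘ s n) (P + t • w) w‖ ^ p)) atTop ≤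
      ∫⁻ t in Icc (0:ℝ) 1, limsup (fun n =>
        ENNReal.ofReal (‖fderiv ℝ (G ∘ s n) (P + t • w) w‖ ^ p)) atTop := by
    refine limsup_lintegral_le
      (fun _ => ENNReal.ofReal ((B * (2 * (CR / γ) * ‖w‖)) ^ p)) (fun n => ?_) (fun n => ?_) ?_
    · exact (((measurable_fderiv_apply_const ℝ (G ∘ s n) w).comp
        hcont.measurable).norm.pow_const p).ennreal_ofReal
    · filter_upwards [hmem] with t ht
      refine (h.energy_bound hr hp hW hG hsub hBd n ht).trans ?_
      refine ENNReal.ofReal_le_ofReal (Real.rpow_le_rpow (by positivity) ?_ hp0.le)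
      exact mul_le_mul_of_nonneg_left (h.bound hij hik hjk hr hρ hγ n ht) hB
    · rw [lintegral_const]
      exact ENNReal.mul_ne_top ENNReal.ofReal_ne_top (by simp)
  have hpt : ∀ᵐ t ∂(volume.restrict (Icc (0:ℝ) 1)), limsup (fun n =>
        ENNReal.ofReal (‖fderiv ℝ (G ∘ s n) (P + t • w) w‖ ^ p)) atTop ≤
      ENNReal.ofReal ((2 / γ * ‖w‖) ^ (p - 1)) * domS p G a P w ρ k t := by
    by_cases hall : ∀ t, |co a P w i t| = |co a P w j t|
    · filter_upwards [hmem, hbi] with t ht hb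
      have h1 := h.diag hij hik hjk hR hρ hγ hall ht hb
      have h2 : Tendsto (fun n => ENNReal.ofReal ((B * ‖fderiv ℝ (s n) (P + t • w) w‖) ^ p))
          atTop (𝓝 0) := by
        have h3 := ENNReal.tendsto_ofReal
          ((h1.norm.const_mul B).rpow_const (p := p) (Or.inr hp0.le))
        rwa [norm_zero, mul_zero, Real.zero_rpow hp0.ne', ENNReal.ofReal_zero] at h3
      have h4 : Tendsto (fun n =>
          ENNReal.ofReal (‖fderiv ℝ (G ∘ s n) (P + t • w) w‖ ^ p)) atTop (𝓝 0) :=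
        tendsto_of_tendsto_of_tendsto_of_le_of_le tendsto_const_nhds h2 (fun _ => zero_le)
          fun n => h.energy_bound hr hp hW hG hsub hBd n ht
      rw [h4.limsup_eq]
      exact zero_le
    · filter_upwards [hmem, hbi, hbj, ae_restrict_of_ae (ae_abs_ne_of_not
        (α := P i - a i) (β := w i) (α' := P j - a j) (β' := w j) hall)] with t ht hb hb' hne
      rcases lt_or_gt_of_ne (show |co a P w i t| ≠ |co a P w j t| from hne) with hlt | hlt
      · exact h.limsup_le (Ne.symm hij) hjk hik hr hs hK hρ hγ hp hW hG hsub ht hlt hb'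
      · exact h.limsup_le hij hik hjk hr hs hK hρ hγ hp hW hG hsub ht hlt hb
  have hle : ∫⁻ t in Icc (0:ℝ) 1, limsup (fun n =>
        ENNReal.ofReal (‖fderiv ℝ (G ∘ s n) (P + t • w) w‖ ^ p)) atTop ≤ A := by
    calc ∫⁻ t in Icc (0:ℝ) 1, limsup (fun n =>
          ENNReal.ofReal (‖fderiv ℝ (G ∘ s n) (P + t • w) w‖ ^ p)) atTop ≤
        ∫⁻ t in Icc (0:ℝ) 1,
          ENNReal.ofReal ((2 / γ * ‖w‖) ^ (p - 1)) * domS p G a P w ρ k t :=
          lintegral_mono_ae hpt
      _ ≤ ∫⁻ t, ENNReal.ofReal ((2 / γ * ‖w‖) ^ (p - 1)) * domS p G a P w ρ k t :=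
          setLIntegral_le_lintegral _ _
      _ = ENNReal.ofReal ((2 / γ * ‖w‖) ^ (p - 1)) * ∫⁻ t, domS p G a P w ρ k t :=
          lintegral_const_mul' _ _ ENNReal.ofReal_ne_top
      _ ≤ ENNReal.ofReal ((2 / γ * ‖w‖) ^ (p - 1)) *
          (ENNReal.ofReal (1 / (2 * ρ) ^ 2) * edgesE p G a k ρ) := by
          gcongr
          exact lintegral_domS_le hρ
      _ = A := by
          rw [hA, ← mul_assoc, ← ENNReal.ofReal_mul (by positivity),
            ← ENNReal.ofReal_mul (by positivity), Real.mul_rpow (by positivity) (norm_nonneg _)]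
          congr 2
          ring
  have hlt : limsup (fun n => ∫⁻ t in Icc (0:ℝ) 1,
        ENNReal.ofReal (‖fderiv ℝ (G ∘ s n) (P + t • w) w‖ ^ p)) atTop < A + ε :=
    (hlim.trans hle).trans_lt (ENNReal.lt_add_right hAtop hε)
  exact (eventually_lt_of_limsup_lt hlt).mono fun n hn => hn.le

end

end Vale.Agent.P073.LR
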