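import Vale.Agent.P073.Net.Defs
import Vale.Agent.P073.PLS.Defs

/-!
# P073, block LR: subdivision of a locally finite family of rational segments to a graph
-/

open Set Metric Topology Filter

namespace P073.LR

open Vale.Agent.P073.St (V)
open P073.Net P073.PLS

/-- a locally finite family of non-degenerate rational segments -/
structure SegFam (Ω : Set V) (v : V) {ι : Type} (a b : ι → V) : Prop where
  ra : ∀ i, a i ∈ Rat3 v
  rb : ∀ i, b i ∈ Rat3 v
  ne : ∀ i, a i ≠ b i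
  sub : ∀ i, segment ℝ (a i) (b i) ⊆ Ω
  fin : ∀ K ⊆ Ω, IsCompact K → {i | (segment ℝ (a i) (b i) ∩ K).Nonempty}.Finite

/-- **(SUBDIV)** -/
def SpecSubdiv : Prop :=
  ∀ (Ω : Set V) (v : V) (ι : Type) (a b : ι → V), SegFam Ω v a b →
    ∃ G : Net.Graph Ω, (∀ e, G.a e ∈ Rat3 v ∧ G.b e ∈ Rat3 v) ∧
      (∀ e, ∃ i, segment ℝ (G.a e) (G.b e) ⊆ segment ℝ (a i) (b i)) ∧
      ∀ i, ∃ S : Finset G.ι, segment ℝ (a i) (b i) = ⋃ e ∈ S, segment ℝ (G.a e) (G.b e)

namespace Subdiv

variable {Ω : Set V} {v : V} {ι : Type} {a b : ι → V}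

/-- the vertices of the subdivision -/
def D (a b : ι → V) : Set V :=
  {x | (∃ i, x = a i ∨ x = b i) ∨ ∃ i j, segment ℝ (a i) (b i) ∩ segment ℝ (a j) (b j) = {x}}

theorem a_mem (i : ι) : a i ∈ D a b := Or.inl ⟨i, Or.inl rfl⟩
theorem b_mem (i : ι) : b i ∈ D a b := Or.inl ⟨i, Or.inr rfl⟩

/-- a point of a segment which is not an end point is in its open segment -/
theorem mem_open {p q x : V} (hx : x ∈ segment ℝ p q) (h1 : x ≠ p) (h2 : x ≠ q) :
    ∃ t ∈ Ioo (0:ℝ) 1, x = p + t • (q - p) := by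
  rw [segment_eq_image'] at hx
  obtain ⟨t, ht, rfl⟩ := hx
  refine ⟨t, ⟨lt_of_le_of_ne ht.1 ?_, lt_of_le_of_ne ht.2 ?_⟩, rfl⟩
  · rintro rfl; exact h1 (by simp)
  · rintro rfl; exact h2 (by simp)

theorem rat_line {p q : V} (hp : p ∈ Rat3 v) (hq : q ∈ Rat3 v) (t : ℚ) :
    p + (t : ℝ) • (q - p) ∈ Rat3 v := by
  obtain ⟨x, hx⟩ := hp
  obtain ⟨y, hy⟩ := hq
  refine ⟨fun k => x k + t * (y k - x k), fun k => ?_⟩
  simp only [Pi.add_apply, Pi.smul_apply, Pi.sub_apply, smul_eq_mul, hx, hy]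
  push_cast
  ring

/-- rationality of the vertices -/
theorem rat_of_mem (F : SegFam Ω v a b) {x : V} (hx : x ∈ D a b) : x ∈ Rat3 v := by
  rcases hx with ⟨i, rfl | rfl⟩ | ⟨i, j, hij⟩
  · exact F.ra i
  · exact F.rb i
  have hxi : x ∈ segment ℝ (a i) (b i) := (hij.ge rfl).1
  have hxj : x ∈ segment ℝ (a j) (b j) := (hij.ge rfl).2
  by_cases e1 : x = a i
  · rw [e1]; exact F.ra i
  by_cases e2 : x = b i
  · rw [e2]; exact F.rb i
  by_cases e3 : x = a j
  · rw [e3]; exact F.ra j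
  by_cases e4 : x = b j
  · rw [e4]; exact F.rb j
  obtain ⟨s, hs, hxs⟩ := mem_open hxi e1 e2
  obtain ⟨t, ht, hxt⟩ := mem_open hxj e3 e4
  obtain ⟨p, hp⟩ := F.ra i
  obtain ⟨p', hp'⟩ := F.rb i
  obtain ⟨q, hq⟩ := F.ra j
  obtain ⟨q', hq'⟩ := F.rb j
  -- directions
  set d : Fin 3 → ℚ := fun k => p' k - p k with hd
  set e : Fin 3 → ℚ := fun k => q' k - q k with he
  have hdk : ∀ k, b i k - a i k = d k := fun k => by rw [hp, hp']; simp [hd]
  have hek : ∀ k, b j k - a j k = e k := fun k => by rw [hq, hq']; simp [he]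
  -- a non-zero minor
  have hminor : ∃ k l, d k * e l - d l * e k ≠ 0 := by
    by_contra hcon
    push Not at hcon
    -- then `d` and `e` are parallel
    have hd0 : ∃ k, d k ≠ 0 := by
      by_contra h0
      push Not at h0
      apply F.ne i
      ext k
      have h1 := hdk k
      rw [h0 k] at h1
      simp at h1
      linarith
    have he0 : ∃ k, e k ≠ 0 := by
      by_contra h0
      push Not at h0
      apply F.ne j
      ext k
      have h1 := hek k
      rw [h0 k] at h1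
      simp at h1
      linarith
    obtain ⟨k, hk⟩ := hd0
    set c : ℚ := e k / d k with hc
    have hec : ∀ l, e l = c * d l := by
      intro l
      have h1 := hcon k l
      rw [hc]
      field_simp
      linarith
    have hc0 : c ≠ 0 := by
      intro h0
      obtain ⟨l, hl⟩ := he0
      exact hl (by rw [hec, h0, zero_mul])
    have hpar : b j - a j = (c : ℝ) • (b i - a i) := by
      ext l
      simp only [Pi.sub_apply, Pi.smul_apply, smul_eq_mul]
      rw [hek, hdk, hec]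
      push_cast; ring
    -- move a little
    have hcR : (c : ℝ) ≠ 0 := by exact_mod_cast hc0
    obtain ⟨δ, hδ, hδ1, hδ2⟩ : ∃ δ : ℝ, 0 < δ ∧ s + δ < 1 ∧ |δ / c| < min t (1 - t) := by
      have h1 : 0 < min t (1 - t) := lt_min ht.1 (by linarith [ht.2])
      refine ⟨min ((1 - s) / 2) (|(c:ℝ)| * (min t (1 - t) / 2)), ?_, ?_, ?_⟩
      · exact lt_min (by linarith [hs.2]) (by positivity)
      · have := min_le_left ((1 - s) / 2) (|(c:ℝ)| * (min t (1 - t) / 2))
        linarith [hs.2]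
      · have h2 := min_le_right ((1 - s) / 2) (|(c:ℝ)| * (min t (1 - t) / 2))
        have h3 : 0 < min ((1 - s) / 2) (|(c:ℝ)| * (min t (1 - t) / 2)) :=
          lt_min (by linarith [hs.2]) (by positivity)
        rw [abs_div, abs_of_pos h3, div_lt_iff₀ (abs_pos.2 hcR)]
        have : 0 < |(c:ℝ)| := abs_pos.2 hcR
        nlinarith
    have hy1 : x + δ • (b i - a i) ∈ segment ℝ (a i) (b i) := by
      rw [segment_eq_image']
      refine ⟨s + δ, ⟨by linarith [hs.1], hδ1.le⟩, ?_⟩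
      rw [hxs]; simp only; module
    have hy2 : x + δ • (b i - a i) ∈ segment ℝ (a j) (b j) := by
      rw [segment_eq_image']
      have h4 := abs_lt.1 hδ2
      have h5 := min_le_left t (1 - t)
      have h6 := min_le_right t (1 - t)
      refine ⟨t + δ / c, ⟨by linarith, by linarith⟩, ?_⟩
      have h7 : δ • (b i - a i) = (δ / c) • (b j - a j) := by
        rw [hpar, smul_smul, div_mul_cancel₀ _ hcR]
      rw [h7, hxt]; simp only; module
    have h8 : x + δ • (b i - a i) ∈ ({x} : Set V) := hij ▸ ⟨hy1, hy2⟩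
    have h9 : δ • (b i - a i) = 0 := by simpa using h8
    rcases smul_eq_zero.1 h9 with h10 | h10
    · exact hδ.ne' h10
    · exact F.ne i (sub_eq_zero.1 h10).symm
  obtain ⟨k, l, hkl⟩ := hminor
  -- Cramer
  have hE : ∀ m, a i m + s * d m = a j m + t * e m := by
    intro m
    have h1 := congrFun hxs m
    have h2 := congrFun hxt m
    simp only [Pi.add_apply, Pi.smul_apply, Pi.sub_apply, smul_eq_mul] at h1 h2
    rw [← hdk, ← hek]
    linarith
  have hs' : s = (((q k - p k) * e l - (q l - p l) * e k) / (d k * e l - d l * e k) : ℚ) := by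
    have hne : (d k * e l - d l * e k : ℝ) ≠ 0 := by exact_mod_cast hkl
    push_cast
    rw [eq_div_iff hne]
    have h1 := hE k
    have h2 := hE l
    rw [hp, hq] at h1 h2
    linear_combination (e l : ℝ) * h1 - (e k : ℝ) * h2
  rw [hxs, hs']
  exact rat_line (F.ra i) (F.rb i) _

/-- finitely many vertices on each segment -/
theorem finite_D (F : SegFam Ω v a b) (i : ι) : (D a b ∩ segment ℝ (a i) (b i)).Finite := by
  have hc : IsCompact (segment ℝ (a i) (b i)) := by
    rw [segment_eq_image']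
    exact isCompact_Icc.image (by fun_prop)
  have hK := F.fin _ (F.sub i) hc
  have h1 : D a b ∩ segment ℝ (a i) (b i) ⊆
      (⋃ j ∈ {j | (segment ℝ (a j) (b j) ∩ segment ℝ (a i) (b i)).Nonempty}, {a j, b j}) ∪
      ⋃ j ∈ {j | (segment ℝ (a j) (b j) ∩ segment ℝ (a i) (b i)).Nonempty},
        ⋃ k ∈ {j | (segment ℝ (a j) (b j) ∩ segment ℝ (a i) (b i)).Nonempty},
          {x | segment ℝ (a j) (b j) ∩ segment ℝ (a k) (b k) = {x}} := by
    rintro x ⟨hx | ⟨j, k, hjk⟩, hxi⟩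
    · left
      obtain ⟨j, hj⟩ := hx
      refine mem_biUnion (x := j) ?_ (by simpa using hj)
      rcases hj with rfl | rfl
      · exact ⟨_, left_mem_segment ℝ _ _, hxi⟩
      · exact ⟨_, right_mem_segment ℝ _ _, hxi⟩
    · right
      have h2 : x ∈ segment ℝ (a j) (b j) ∩ segment ℝ (a k) (b k) := hjk.ge rfl
      refine mem_biUnion (x := j) ⟨x, h2.1, hxi⟩ (mem_biUnion (x := k) ⟨x, h2.2, hxi⟩ hjk)
  refine Finite.subset ?_ h1
  refine (hK.biUnion fun j _ => (finite_singleton (b j)).insert (a j)).union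
    (hK.biUnion fun j _ => hK.biUnion fun k _ => ?_)
  apply Set.Subsingleton.finite
  intro x hx y hy
  have : ({x} : Set V) = {y} := by rw [← hx, ← hy]
  exact singleton_injective this

/-- the edges -/
abbrev Edge (a b : ι → V) : Type :=
  {S : Set V // ∃ p ∈ D a b, ∃ q ∈ D a b, p ≠ q ∧ S = segment ℝ p q ∧
    (∃ i, S ⊆ segment ℝ (a i) (b i)) ∧ Disjoint (openSegment ℝ p q) (D a b)}

/-- first end point -/
noncomputable def fst (S : Edge a b) : V := S.2.choose
/-- second end point -/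
noncomputable def snd (S : Edge a b) : V := S.2.choose_spec.2.choose

theorem fst_mem (S : Edge a b) : fst S ∈ D a b := S.2.choose_spec.1
theorem snd_mem (S : Edge a b) : snd S ∈ D a b := S.2.choose_spec.2.choose_spec.1
theorem fst_ne (S : Edge a b) : fst S ≠ snd S := S.2.choose_spec.2.choose_spec.2.1
theorem eq_seg (S : Edge a b) : S.1 = segment ℝ (fst S) (snd S) :=
  S.2.choose_spec.2.choose_spec.2.2.1
theorem sub_seg (S : Edge a b) : ∃ i, S.1 ⊆ segment ℝ (a i) (b i) :=
  S.2.choose_spec.2.choose_spec.2.2.2.1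
theorem open_disj (S : Edge a b) : Disjoint (openSegment ℝ (fst S) (snd S)) (D a b) :=
  S.2.choose_spec.2.choose_spec.2.2.2.2

/-- a vertex on an edge is an end point -/
theorem eq_of_mem_D (S : Edge a b) {x : V} (hx : x ∈ S.1) (hD : x ∈ D a b) :
    x = fst S ∨ x = snd S := by
  by_contra hcon
  push Not at hcon
  rw [eq_seg] at hx
  obtain ⟨t, ht, hxt⟩ := mem_open hx hcon.1 hcon.2
  refine Set.disjoint_left.1 (open_disj S) ?_ hD
  rw [openSegment_eq_image']
  exact ⟨t, ht, hxt.symm⟩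

/-- the end point of an edge in direction `w`, seen from an interior point -/
theorem ends_along (S : Edge a b) {x w : V} (hx : x ∈ S.1) (hD : x ∉ D a b)
    (hw : ∃ c : ℝ, snd S - fst S = c • w) :
    ∃ s₁ s₂ : ℝ, s₁ < 0 ∧ 0 < s₂ ∧ x + s₁ • w ∈ D a b ∧ x + s₂ • w ∈ D a b ∧
      S.1 = segment ℝ (x + s₁ • w) (x + s₂ • w) ∧
      ∀ s, s₁ < s → s < s₂ → x + s • w ∉ D a b := by
  have h1 : x ≠ fst S := fun h => hD (h ▸ fst_mem S)
  have h2 : x ≠ snd S := fun h => hD (h ▸ snd_mem S)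
  have hx' := hx
  rw [eq_seg] at hx'
  obtain ⟨t, ht, hxt⟩ := mem_open hx' h1 h2
  obtain ⟨c, hc⟩ := hw
  have hc0 : c ≠ 0 := by
    rintro rfl
    rw [zero_smul, sub_eq_zero] at hc
    exact fst_ne S hc.symm
  have e1 : fst S = x + (-(t * c)) • w := by
    have : x = fst S + (t * c) • w := by rw [mul_smul, ← hc]; exact hxt
    rw [this]; module
  have e2 : snd S = x + ((1 - t) * c) • w := by
    have h3 : snd S = fst S + c • w := by rw [← hc]; abel
    rw [h3, e1]; module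
  have hopen : ∀ s : ℝ, (-(t * c) < s ∧ s < (1 - t) * c ∨ (1 - t) * c < s ∧ s < -(t * c)) →
      x + s • w ∉ D a b := by
    intro s hs hmem
    refine Set.disjoint_left.1 (open_disj S) ?_ hmem
    rw [openSegment_eq_image']
    refine ⟨(s + t * c) / c, ?_, ?_⟩
    · rcases lt_or_gt_of_ne hc0 with hneg | hpos
      · rcases hs with hs | hs
        · exfalso; nlinarith [ht.1, ht.2, hs.1, hs.2]
        · constructor
          · exact div_pos_of_neg_of_neg (by linarith) hneg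
          · rw [div_lt_one_of_neg hneg]; linarith
      · rcases hs with hs | hs
        · constructor
          · exact div_pos (by linarith) hpos
          · rw [div_lt_one hpos]; linarith
        · exfalso; nlinarith [ht.1, ht.2, hs.1, hs.2]
    · simp only
      rw [hc, smul_smul, div_mul_cancel₀ _ hc0, e1]
      module
  rcases lt_or_gt_of_ne hc0 with hneg | hpos
  · refine ⟨(1 - t) * c, -(t * c), by nlinarith [ht.2], by nlinarith [ht.1], ?_, ?_, ?_, ?_⟩
    · rw [← e2]; exact snd_mem S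
    · rw [← e1]; exact fst_mem S
    · rw [← e1, ← e2, segment_symm]; exact eq_seg S
    · exact fun s hs1 hs2 => hopen s (Or.inr ⟨hs1, hs2⟩)
  · refine ⟨-(t * c), (1 - t) * c, by nlinarith [ht.1], by nlinarith [ht.2], ?_, ?_, ?_, ?_⟩
    · rw [← e1]; exact fst_mem S
    · rw [← e2]; exact snd_mem S
    · rw [← e1, ← e2]; exact eq_seg S
    · exact fun s hs1 hs2 => hopen s (Or.inl ⟨hs1, hs2⟩)

/-- the direction of a sub-segment -/
theorem dir_of_sub {i : ι} {p q : V} (h : segment ℝ p q ⊆ segment ℝ (a i) (b i)) :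
    ∃ c : ℝ, q - p = c • (b i - a i) := by
  have h1 := h (left_mem_segment ℝ p q)
  have h2 := h (right_mem_segment ℝ p q)
  rw [segment_eq_image'] at h1 h2
  obtain ⟨s, -, hs⟩ := h1
  obtain ⟨t, -, ht⟩ := h2
  refine ⟨t - s, ?_⟩
  rw [← hs, ← ht]; simp only; module

/-- two edges with a common point which is not a vertex coincide -/
theorem eq_of_common (S S' : Edge a b) {x : V} (hx : x ∈ S.1) (hx' : x ∈ S'.1)
    (hD : x ∉ D a b) : S = S' := by
  obtain ⟨i, hi⟩ := sub_seg S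
  obtain ⟨j, hj⟩ := sub_seg S'
  have hne : segment ℝ (a i) (b i) ∩ segment ℝ (a j) (b j) ≠ {x} := fun h => hD (Or.inr ⟨i, j, h⟩)
  have hxij : x ∈ segment ℝ (a i) (b i) ∩ segment ℝ (a j) (b j) := ⟨hi hx, hj hx'⟩
  obtain ⟨y, hy, hyx⟩ : ∃ y ∈ segment ℝ (a i) (b i) ∩ segment ℝ (a j) (b j), y ≠ x := by
    by_contra hcon
    push Not at hcon
    exact hne (Subset.antisymm (fun y hy => hcon y hy) (singleton_subset_iff.2 hxij))
  -- the common direction
  set w := y - x with hw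
  have hw0 : w ≠ 0 := sub_ne_zero.2 hyx
  have hdir : ∀ (l : ι), x ∈ segment ℝ (a l) (b l) → y ∈ segment ℝ (a l) (b l) →
      ∃ c : ℝ, b l - a l = c • w := by
    intro l h1 h2
    rw [segment_eq_image'] at h1 h2
    obtain ⟨s, -, hs⟩ := h1
    obtain ⟨t, -, ht⟩ := h2
    have h3 : w = (t - s) • (b l - a l) := by
      rw [hw, ← hs, ← ht]; simp only; module
    have h4 : t - s ≠ 0 := by
      intro h0
      rw [h0, zero_smul] at h3
      exact hw0 h3
    exact ⟨(t - s)⁻¹, by rw [h3, smul_smul, inv_mul_cancel₀ h4, one_smul]⟩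
  have hS : ∃ c : ℝ, snd S - fst S = c • w := by
    obtain ⟨c, hc⟩ := dir_of_sub (p := fst S) (q := snd S) ((eq_seg S) ▸ hi)
    obtain ⟨c', hc'⟩ := hdir i hxij.1 hy.1
    exact ⟨c * c', by rw [hc, hc', smul_smul]⟩
  have hS' : ∃ c : ℝ, snd S' - fst S' = c • w := by
    obtain ⟨c, hc⟩ := dir_of_sub (p := fst S') (q := snd S') ((eq_seg S') ▸ hj)
    obtain ⟨c', hc'⟩ := hdir j hxij.2 hy.2
    exact ⟨c * c', by rw [hc, hc', smul_smul]⟩
  obtain ⟨s₁, s₂, h1, h2, h3, h4, h5, h6⟩ := ends_along S hx hD hS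
  obtain ⟨t₁, t₂, k1, k2, k3, k4, k5, k6⟩ := ends_along S' hx' hD hS'
  have e1 : s₁ = t₁ := by
    rcases lt_trichotomy s₁ t₁ with h | h | h
    · exact absurd k3 (h6 t₁ h (by linarith))
    · exact h
    · exact absurd h3 (k6 s₁ h (by linarith))
  have e2 : s₂ = t₂ := by
    rcases lt_trichotomy s₂ t₂ with h | h | h
    · exact absurd h4 (k6 s₂ (by linarith) h)
    · exact h
    · exact absurd k4 (h6 t₂ (by linarith) h)
  apply Subtype.ext
  rw [h5, k5, e1, e2]

/-- the edges in a segment are finitely many -/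
theorem finite_edges (F : SegFam Ω v a b) (i : ι) :
    {S : Edge a b | S.1 ⊆ segment ℝ (a i) (b i)}.Finite := by
  have hfin := finite_D F i
  have h1 : (Subtype.val '' {S : Edge a b | S.1 ⊆ segment ℝ (a i) (b i)}).Finite := by
    have h2 : Subtype.val '' {S : Edge a b | S.1 ⊆ segment ℝ (a i) (b i)} ⊆
        (fun z : V × V => segment ℝ z.1 z.2) ''
          ((D a b ∩ segment ℝ (a i) (b i)) ×ˢ (D a b ∩ segment ℝ (a i) (b i))) := by
      rintro _ ⟨S, hS, rfl⟩
      refine ⟨(fst S, snd S), ⟨⟨fst_mem S, hS ?_⟩, ⟨snd_mem S, hS ?_⟩⟩, (eq_seg S).symm⟩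
      · rw [eq_seg]; exact left_mem_segment ℝ _ _
      · rw [eq_seg]; exact right_mem_segment ℝ _ _
    exact ((hfin.prod hfin).image _).subset h2
  exact Finite.of_finite_image h1 Subtype.val_injective.injOn

/-- every point of a segment is on an edge in this segment -/
theorem exists_edge (F : SegFam Ω v a b) (i : ι) {x : V} (hx : x ∈ segment ℝ (a i) (b i)) :
    ∃ S : Edge a b, S.1 ⊆ segment ℝ (a i) (b i) ∧ x ∈ S.1 := by
  classical
  have hd : b i - a i ≠ 0 := sub_ne_zero.2 (F.ne i).symm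
  obtain ⟨γ, h0, h1, hinj, hγ, hγo⟩ : ∃ γ : ℝ → V, γ 0 = a i ∧ γ 1 = b i ∧ Function.Injective γ ∧
      (∀ s t, s ≤ t → segment ℝ (γ s) (γ t) = γ '' Icc s t) ∧
      ∀ s t, s < t → openSegment ℝ (γ s) (γ t) = γ '' Ioo s t := by
    refine ⟨AffineMap.lineMap (k := ℝ) (a i) (b i), by simp, by simp,
      AffineMap.lineMap_injective ℝ (F.ne i), fun s t hst => ?_, fun s t hst => ?_⟩
    · rw [← image_segment, segment_eq_Icc hst]
    · rw [← image_openSegment, openSegment_eq_Ioo hst]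
  have hseg : segment ℝ (a i) (b i) = γ '' Icc 0 1 := by rw [← h0, ← h1, hγ 0 1 zero_le_one]
  let T : Set ℝ := {t | t ∈ Icc (0:ℝ) 1 ∧ γ t ∈ D a b}
  have hT : T.Finite := by
    refine Finite.of_finite_image ((finite_D F i).subset ?_) hinj.injOn
    rintro _ ⟨t, ht, rfl⟩
    exact ⟨ht.2, hseg ▸ ⟨t, ht.1, rfl⟩⟩
  have h0T : (0:ℝ) ∈ T := ⟨by simp, by rw [h0]; exact a_mem i⟩
  have h1T : (1:ℝ) ∈ T := ⟨by simp, by rw [h1]; exact b_mem i⟩
  -- an edge between two consecutive parameters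
  have mk : ∀ s t : ℝ, s ∈ T → t ∈ T → s < t → (∀ u ∈ T, ¬ (s < u ∧ u < t)) →
      ∃ S : Edge a b, S.1 = γ '' Icc s t := by
    intro s t hs ht hst hno
    refine ⟨⟨segment ℝ (γ s) (γ t), γ s, hs.2, γ t, ht.2, fun h => hst.ne (hinj h), rfl, ⟨i, ?_⟩,
      ?_⟩, hγ s t hst.le⟩
    · rw [hγ s t hst.le, hseg]
      exact image_mono (Icc_subset_Icc hs.1.1 ht.1.2)
    · rw [Set.disjoint_left, hγo s t hst]
      rintro _ ⟨u, hu, rfl⟩ hD
      exact hno u ⟨⟨hs.1.1.trans hu.1.le, hu.2.le.trans ht.1.2⟩, hD⟩ hu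
  rw [hseg] at hx
  obtain ⟨t₀, ht₀, rfl⟩ := hx
  have hfinal : ∀ s t : ℝ, s ∈ T → t ∈ T → s < t → (∀ u ∈ T, ¬ (s < u ∧ u < t)) → t₀ ∈ Icc s t →
      ∃ S : Edge a b, S.1 ⊆ segment ℝ (a i) (b i) ∧ γ t₀ ∈ S.1 := by
    intro s t hs ht hst hno hmem
    obtain ⟨S, hS⟩ := mk s t hs ht hst hno
    refine ⟨S, ?_, ?_⟩
    · rw [hS, hseg]
      exact image_mono (Icc_subset_Icc hs.1.1 ht.1.2)
    · rw [hS]; exact ⟨t₀, hmem, rfl⟩
  rcases lt_or_eq_of_le ht₀.2 with hlt | heq
  · obtain ⟨s, hs, hsmax⟩ := Set.exists_max_image {u | u ∈ T ∧ u ≤ t₀} id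
      (hT.subset fun u hu => hu.1) ⟨0, h0T, ht₀.1⟩
    obtain ⟨t, ht, htmin⟩ := Set.exists_min_image {u | u ∈ T ∧ t₀ < u} id
      (hT.subset fun u hu => hu.1) ⟨1, h1T, hlt⟩
    refine hfinal s t hs.1 ht.1 (hs.2.trans_lt ht.2) ?_ ⟨hs.2, ht.2.le⟩
    rintro u huT ⟨hu1, hu2⟩
    rcases le_or_gt u t₀ with h | h
    · exact absurd (hsmax u ⟨huT, h⟩) (not_le.2 hu1)
    · exact absurd (htmin u ⟨huT, h⟩) (not_le.2 hu2)
  · obtain ⟨s, hs, hsmax⟩ := Set.exists_max_image {u | u ∈ T ∧ u < 1} id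
      (hT.subset fun u hu => hu.1) ⟨0, h0T, one_pos⟩
    refine hfinal s 1 hs.1 h1T hs.2 ?_ ⟨by rw [heq]; exact hs.2.le, heq.le⟩
    rintro u huT ⟨hu1, hu2⟩
    exact absurd (hsmax u ⟨huT, hu2⟩) (not_le.2 hu1)

end Subdiv

open Subdiv

/-- **(SUBDIV)** -/
theorem specSubdiv : SpecSubdiv := by
  intro Ω v ι a b F
  classical
  let G : Net.Graph Ω :=
    { ι := Edge a b
      a := Subdiv.fst
      b := Subdiv.snd
      ne := fst_ne
      sub := fun S => by
        rw [← eq_seg]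
        obtain ⟨i, hi⟩ := sub_seg S
        exact hi.trans (F.sub i)
      fin := by
        intro K hK hKc
        have h1 := F.fin K hK hKc
        refine (h1.biUnion fun i _ => finite_edges F i).subset ?_
        intro S hS
        obtain ⟨i, hi⟩ := sub_seg S
        have hS' : (segment ℝ (Subdiv.fst S) (Subdiv.snd S) ∩ K).Nonempty := hS
        rw [← eq_seg] at hS'
        exact mem_biUnion (x := i) (hS'.mono (inter_subset_inter_left K hi)) hi
      meet := by
        intro S S' hne x hx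
        rw [← eq_seg, ← eq_seg] at hx
        have hD : x ∈ D a b := by
          by_contra hD
          exact hne (eq_of_common S S' hx.1 hx.2 hD)
        have h1 := eq_of_mem_D S hx.1 hD
        have h2 := eq_of_mem_D S' hx.2 hD
        exact ⟨by simpa using h1, by simpa using h2⟩ }
  refine ⟨G, fun e => ⟨rat_of_mem F (fst_mem e), rat_of_mem F (snd_mem e)⟩, fun e => ?_, fun i => ?_⟩
  · obtain ⟨i, hi⟩ := sub_seg e
    exact ⟨i, by rw [eq_seg] at hi; exact hi⟩
  · have hfin := finite_edges F i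
    refine ⟨hfin.toFinset, ?_⟩
    apply Subset.antisymm
    · intro x hx
      obtain ⟨S, hS, hxS⟩ := exists_edge F i hx
      refine mem_biUnion (x := S) (by simpa using hS) ?_
      rw [eq_seg] at hxS
      exact hxS
    · apply iUnion₂_subset
      intro S hS
      have h1 : S.1 ⊆ segment ℝ (a i) (b i) := hfin.mem_toFinset.1 hS
      rw [eq_seg] at h1
      exact h1

end P073.LR
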