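import Vale.Agent.P073.LR.Spec
import Vale.Agent.P073.LR.Subdiv752

/-!
# P073, block LR: `SpecSubdiv` in the form of LR/Spec.lean
-/

open Set Metric Topology Filter

namespace P073.LR

open Vale.Agent.P073.St (V)

/-- (LR4) -/
theorem specSubdivLR : Vale.Agent.P073.LR.SpecSubdiv := by
  intro Ω o ι hι a b hΩ hab hsub hfin
  have F : SegFam Ω o a b := ⟨fun i => (hab i).1, fun i => (hab i).2.1, fun i => (hab i).2.2, hsub,
    hfin⟩
  obtain ⟨G, h1, h2, h3⟩ := specSubdiv Ω o ι a b F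
  refine ⟨G, ?_, h1, h2, h3⟩
  rw [← Set.countable_univ_iff]
  have h4 : (univ : Set G.ι) ⊆ ⋃ i : ι,
      {e | (segment ℝ (G.a e) (G.b e) ∩ segment ℝ (a i) (b i)).Nonempty} := by
    intro e _
    obtain ⟨i, hi⟩ := h2 e
    exact mem_iUnion.2 ⟨i, G.a e, left_mem_segment ℝ _ _, hi (left_mem_segment ℝ _ _)⟩
  refine Countable.mono h4 (countable_iUnion fun i => ?_)
  refine (G.fin _ (hsub i) ?_).countable
  rw [segment_eq_image']
  exact isCompact_Icc.image (by fun_prop)

end P073.LR
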